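import Vale.Agent.P167.H318.GT

/-!
# P167, general `q`, block Q-NSYM: the potential of the past for any direction of the tip
-/

namespace Vale.Agent.P167.H192.ArcP

open Vale.Agent.P167 Vale.Agent.P167.H192 Vale.Agent.P145.FB Vale.Agent.P167.H558
open Vale.Agent.P167.H318 Relation
open Vale.Agent.P167.H632 (Ex sq_inl sq_inr ex_rect)

/-- The column below the tip is fresh. -/
structure Tp (S : St) (x h : ℤ) : Prop where
  ok : S.Ok
  hh : 1 ≤ h
  htip : hdv S.tip = (x, h - 1)
  cl : ∀ y, 0 ≤ y → y ≤ h - 1 → (x, y) ∈ S.F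
  hx : (x, (-1 : ℤ)) ∉ S.D
  ne : S.e0 ≠ Sum.inr (x, -1)

variable {S : St} {x h : ℤ} {u : ℤ × ℤ → ℤ}

theorem Tp.tipD (H : Tp S x h) : hdv S.tip ∈ S.D := by
  rw [H.htip]
  exact H.ok.sub (H.cl _ (by have := H.hh; omega) le_rfl)

/-- no passage at a fresh square -/
theorem cnt_fresh (hS : S.Ok) {v : ℤ × ℤ} (hv : v ∈ S.F) {e : Ed} (he : hdv e = v ∨ tlv e = v)
    (hne : e ≠ S.tip) : cnt S.e0 S.z S.m e = 0 := by
  by_contra hcon
  obtain ⟨i, hi, rfl⟩ := cnt_pos hcon
  rcases he with he | he
  · rcases lt_or_eq_of_le hi with h1 | h1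
    · exact (hs_notF (S := S) ⟨i, h1, he⟩).1 hv
    · subst h1
      exact hne rfl
  · rcases Nat.eq_zero_or_pos i with rfl | h1
    · exact hS.st (by rw [Bs.st_zero] at he; rw [he]; exact hS.sub hv)
    · obtain ⟨j, rfl⟩ : ∃ j, i = j + 1 := ⟨i - 1, by omega⟩
      rw [Bs.tlv_st] at he
      exact (hs_notF (S := S) ⟨j, by omega, he⟩).1 hv

/-- the tip is not the bottom edge of its square -/
theorem Tp.not_up (H : Tp S x h) : S.tip ≠ Sum.inr (x, h - 2) := by
  intro hc
  have h1 : tlv S.tip = (x, h - 2) := by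
    rcases sq_inr (x, h - 2) with h2 | h2
    · have h3 := H.htip
      rw [hc, h2.1] at h3
      have := congrArg Prod.snd h3
      dsimp only at this
      omega
    · rw [hc, h2.2.1]
  have hm : tlv (st S.e0 S.z S.m) = (x, h - 2) := h1
  by_cases h0 : 0 ≤ h - 2
  · have hF := H.cl (h - 2) h0 (by omega)
    rcases Nat.eq_zero_or_pos S.m with h2 | h2
    · rw [h2, Bs.st_zero] at hm
      exact H.ok.st (by rw [hm]; exact H.ok.sub hF)
    · obtain ⟨j, hj⟩ : ∃ j, S.m = j + 1 := ⟨S.m - 1, by omega⟩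
      rw [hj, Bs.tlv_st] at hm
      exact (hs_notF (S := S) ⟨j, by omega, hm⟩).1 hF
  · have e1 : h - 2 = -1 := by have := H.hh; omega
    rw [e1] at hm
    rcases Nat.eq_zero_or_pos S.m with h2 | h2
    · have h3 : S.tip = S.e0 := by
        show st S.e0 S.z S.m = S.e0
        rw [h2, Bs.st_zero]
      exact H.ne (by rw [← h3, hc, e1])
    · obtain ⟨j, hj⟩ : ∃ j, S.m = j + 1 := ⟨S.m - 1, by omega⟩
      rw [hj, Bs.tlv_st] at hm
      exact H.hx (by rw [← hm]; exact (hs_notF (S := S) ⟨j, by omega, rfl⟩).2)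

/-- **The jump across the edges of the past**, any direction of the tip. -/
theorem past' (H : Tp S x h) (hu : Pt0 S x h u) : ∀ i ≤ S.m,
    u (ls (st S.e0 S.z i)) = u (rs (st S.e0 S.z i)) + 1 := by
  intro i hi
  have hm : ∀ j < S.m, hdv (st S.e0 S.z j) ∈ S.D := fun j hj => (Bs.hit_min hj).2
  have h1 : hdv (st S.e0 S.z i) ∈ S.D := by
    rcases lt_or_eq_of_le hi with h1 | h1
    · exact hm i h1
    · rw [h1]; exact H.tipD
  have h2 : col x h (st S.e0 S.z i) = 0 := by
    by_contra hne
    have h3 := col_ne hne (Or.inl rfl)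
    rcases lt_or_eq_of_le hi with h4 | h4
    · have h5 := hs_notF (S := S) ⟨i, h4, rfl⟩
      by_cases h6 : 0 ≤ (hdv (st S.e0 S.z i)).2
      · apply h5.1
        have := H.cl _ h6 h3.2.2
        rw [← h3.1] at this
        exact this
      · apply H.hx
        have h7 : (hdv (st S.e0 S.z i)).2 = -1 := by omega
        rw [← h3.1, ← h7]
        exact h5.2
    · rw [h4] at hne
      have hne' : col x h S.tip ≠ 0 := hne
      have ht := H.htip
      have hup := H.not_up
      rcases htt : S.tip with v | v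
      · rw [htt] at hne'
        exact hne' rfl
      · rw [htt] at hne' ht hup
        simp only [col] at hne'
        split_ifs at hne' with h6
        · rcases sq_inr v with h7 | h7
          · rw [h7.1] at ht
            have := congrArg Prod.snd ht
            dsimp only at this
            omega
          · rw [h7.1] at ht
            have h8 := congrArg Prod.snd ht
            dsimp only at h8
            exact hup (by rw [show v = (x, h - 2) from Prod.ext h6.1 (by dsimp only; omega)])
        · exact hne' rfl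
  rw [hu _ (Or.inl h1), cnt_eq_one H.ok.st hm hi, h2]
  ring

/-- the values beside the column -/
theorem side_vals (H : Tp S x h) (hu : Pt0 S x h u) :
    u (x + 1, 0) = u (ls S.tip) ∧ u (x, 0) = u (rs S.tip) := by
  have hh := H.hh
  -- the two vertical sides
  have hE : ∀ y, 0 ≤ y → y ≤ h - 1 → (Sum.inl (x, y) : Ed) ≠ S.tip → u (x + 1, y) = u (x + 1, y + 1) := by
    intro y h0 h1 hne
    have hF := H.cl y h0 h1
    have hD := H.ok.sub hF
    have hor : hdv (Sum.inl (x, y)) = (x, y) ∨ tlv (Sum.inl (x, y)) = (x, y) := by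
      rcases sq_inl (x, y) with h2 | h2
      · exact Or.inl h2.1
      · exact Or.inr h2.2.1
    have h3 := hu (Sum.inl (x, y)) (by
      rcases hor with h2 | h2
      · left; rw [h2]; exact hD
      · right; rw [h2]; exact hD)
    rw [cnt_fresh H.ok hF hor hne] at h3
    have h4 : col x h (Sum.inl (x, y)) = 0 := rfl
    rw [h4] at h3
    rcases sq_inl (x, y) with h2 | h2 <;> rw [h2.2.2.2.1, h2.2.2.2.2] at h3 <;> linarith
  have hW : ∀ y, 0 ≤ y → y ≤ h - 1 → (Sum.inl (x - 1, y) : Ed) ≠ S.tip → u (x, y) = u (x, y + 1) := by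
    intro y h0 h1 hne
    have hF := H.cl y h0 h1
    have hD := H.ok.sub hF
    have ex : ((x - 1 + 1, y) : ℤ × ℤ) = (x, y) := by rw [sub_add_cancel]
    have hor : hdv (Sum.inl (x - 1, y)) = (x, y) ∨ tlv (Sum.inl (x - 1, y)) = (x, y) := by
      rcases sq_inl (x - 1, y) with h2 | h2
      · right; rw [h2.2.1]; exact ex
      · left; rw [h2.1]; exact ex
    have h3 := hu (Sum.inl (x - 1, y)) (by
      rcases hor with h2 | h2
      · left; rw [h2]; exact hD
      · right; rw [h2]; exact hD)
    rw [cnt_fresh H.ok hF hor hne] at h3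
    have h4 : col x h (Sum.inl (x - 1, y)) = 0 := rfl
    rw [h4] at h3
    rcases sq_inl (x - 1, y) with h2 | h2 <;> rw [h2.2.2.2.1, h2.2.2.2.2] at h3 <;>
      simp only [sub_add_cancel] at h3 <;> linarith
  have hT : (Sum.inr (x, h - 1) : Ed) ≠ S.tip → u (x, h) = u (x + 1, h) := by
    intro hne
    have hF := H.cl (h - 1) (by omega) le_rfl
    have hD := H.ok.sub hF
    have hor : hdv (Sum.inr (x, h - 1)) = (x, h - 1) ∨ tlv (Sum.inr (x, h - 1)) = (x, h - 1) := by
      rcases sq_inr (x, h - 1) with h2 | h2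
      · exact Or.inl h2.1
      · exact Or.inr h2.2.1
    have h3 := hu (Sum.inr (x, h - 1)) (by
      rcases hor with h2 | h2
      · left; rw [h2]; exact hD
      · right; rw [h2]; exact hD)
    rw [cnt_fresh H.ok hF hor hne] at h3
    have h4 : col x h (Sum.inr (x, h - 1)) = 0 := by
      simp only [col]
      rw [if_neg]
      omega
    rw [h4] at h3
    rcases sq_inr (x, h - 1) with h2 | h2 <;> rw [h2.2.2.2.1, h2.2.2.2.2] at h3 <;>
      simp only [sub_add_cancel] at h3 <;> linarith
  -- the tip is at height `h - 1`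
  have hlow : ∀ y, y < h - 1 → (Sum.inl (x, y) : Ed) ≠ S.tip ∧ (Sum.inl (x - 1, y) : Ed) ≠ S.tip := by
    intro y hy
    constructor
    · intro hc
      have h1 := H.htip
      rw [← hc] at h1
      rcases sq_inl (x, y) with h2 | h2 <;> rw [h2.1] at h1 <;> have := congrArg Prod.snd h1 <;>
        dsimp only at this <;> omega
    · intro hc
      have h1 := H.htip
      rw [← hc] at h1
      rcases sq_inl (x - 1, y) with h2 | h2 <;> rw [h2.1] at h1 <;>
        have := congrArg Prod.snd h1 <;> dsimp only at this <;> omega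
  have hE0 : ∀ n : ℕ, (n : ℤ) ≤ h - 1 → u (x + 1, (n : ℤ)) = u (x + 1, 0) := by
    intro n
    induction n with
    | zero => intro _; simp
    | succ n ih =>
      intro hn
      rw [← ih (by push_cast at hn; omega),
        hE n (by omega) (by push_cast at hn; omega) (hlow n (by push_cast at hn; omega)).1]
      push_cast
      rfl
  have hW0 : ∀ n : ℕ, (n : ℤ) ≤ h - 1 → u (x, (n : ℤ)) = u (x, 0) := by
    intro n
    induction n with
    | zero => intro _; simp
    | succ n ih =>
      intro hn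
      rw [← ih (by push_cast at hn; omega),
        hW n (by omega) (by push_cast at hn; omega) (hlow n (by push_cast at hn; omega)).2]
      push_cast
      rfl
  obtain ⟨n, hn⟩ : ∃ n : ℕ, (n : ℤ) = h - 1 := ⟨(h - 1).toNat, by omega⟩
  have e1 := hE0 n hn.le
  have e2 := hW0 n hn.le
  rw [hn] at e1 e2
  have ht := H.htip
  have hup := H.not_up
  have hs : h - 1 + 1 = h := by ring
  rcases htt : S.tip with v | v
  · rw [htt] at ht hE hW hT
    rcases sq_inl v with h7 | h7
    · rw [h7.1] at ht
      subst ht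
      rw [h7.2.2.2.1, h7.2.2.2.2]
      refine ⟨e1.symm, ?_⟩
      have k1 := hW (h - 1) (by omega) le_rfl (fun hc => by
        have := congrArg Prod.fst (Sum.inl.inj hc)
        dsimp only at this
        omega)
      have k2 := hT (by simp)
      dsimp only
      rw [hs] at k1 ⊢
      rw [← e2, k1, k2]
    · rw [h7.1] at ht
      have hv : v = (x - 1, h - 1) := by
        have a1 := congrArg Prod.fst ht
        have a2 := congrArg Prod.snd ht
        dsimp only at a1 a2
        exact Prod.ext (by dsimp only; omega) (by dsimp only; omega)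
      subst hv
      rw [h7.2.2.2.1, h7.2.2.2.2]
      have k1 := hE (h - 1) (by omega) le_rfl (fun hc => by
        have := congrArg Prod.fst (Sum.inl.inj hc)
        dsimp only at this
        omega)
      have k2 := hT (by simp)
      dsimp only
      simp only [sub_add_cancel] at k1 ⊢
      exact ⟨by rw [← e1, k1, k2], e2.symm⟩
  · rw [htt] at ht hE hW hT hup
    rcases sq_inr v with h7 | h7
    · rw [h7.1] at ht
      subst ht
      rw [h7.2.2.2.1, h7.2.2.2.2]
      have k1 := hE (h - 1) (by omega) le_rfl (by simp)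
      have k2 := hW (h - 1) (by omega) le_rfl (by simp)
      dsimp only
      rw [hs] at k1 k2 ⊢
      exact ⟨by rw [← e1, k1], by rw [← e2, k2]⟩
    · rw [h7.1] at ht
      exfalso
      have a1 := congrArg Prod.fst ht
      have a2 := congrArg Prod.snd ht
      dsimp only at a1 a2
      exact hup (by rw [show v = (x, h - 2) from Prod.ext a1 (by dsimp only; omega)])

/-- a step on the bottom row -/
theorem bot_step (H : Tp S x h) (hu : Pt0 S x h u) {a : ℤ} (h1 : (a, (0 : ℤ)) ∈ S.D)
    (h2 : (a, (-1 : ℤ)) ∉ S.D) (h3 : S.e0 ≠ Sum.inr (a, -1)) (h4 : a ≠ x) :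
    u (a, 0) = u (a + 1, 0) := by
  have hor : (hdv (Sum.inr (a, -1)) = (a, -1) ∧ tlv (Sum.inr (a, -1)) = (a, 0)) ∨
      (hdv (Sum.inr (a, -1)) = (a, 0) ∧ tlv (Sum.inr (a, -1)) = (a, -1)) := by
    rcases sq_inr (a, -1) with h5 | h5
    · left; exact ⟨h5.1, by rw [h5.2.1]; simp⟩
    · right; exact ⟨by rw [h5.1]; simp, h5.2.1⟩
  have h5 := hu (Sum.inr (a, -1)) (by
    rcases hor with ⟨k1, k2⟩ | ⟨k1, k2⟩
    · right; rw [k2]; exact h1
    · left; rw [k1]; exact h1)
  have h6 : col x h (Sum.inr (a, -1)) = 0 := by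
    simp only [col]
    rw [if_neg]
    rintro ⟨k1, -⟩
    exact h4 k1
  have h7 : cnt S.e0 S.z S.m (Sum.inr (a, -1)) = 0 := by
    by_contra hcon
    obtain ⟨i, hi, he⟩ := cnt_pos hcon
    rcases hor with ⟨k1, k2⟩ | ⟨k1, k2⟩
    · rcases lt_or_eq_of_le hi with h8 | h8
      · have := (hs_notF (S := S) ⟨i, h8, rfl⟩).2
        rw [he, k1] at this
        exact h2 this
      · subst h8
        have := H.tipD
        rw [show S.tip = Sum.inr (a, -1) from he, k1] at this
        exact h2 this
    · rcases Nat.eq_zero_or_pos i with rfl | h8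
      · exact h3 he
      · obtain ⟨j, rfl⟩ : ∃ j, i = j + 1 := ⟨i - 1, by omega⟩
        have h9 := (hs_notF (S := S) ⟨j, by omega, rfl⟩).2
        rw [← Bs.tlv_st, he, k2] at h9
        exact h2 h9
  rw [h6, h7] at h5
  rcases sq_inr (a, -1) with h8 | h8 <;> rw [h8.2.2.2.1, h8.2.2.2.2] at h5 <;>
    simp only [neg_add_cancel] at h5 <;> linarith

/-- **The value of the left bank at the bottom in the east.** -/
theorem bot_east (H : Tp S x h) (hu : Pt0 S x h u) {c : ℤ}
    (hc : ∀ a, x < a → a < c → (a, (0 : ℤ)) ∈ S.D ∧ (a, (-1 : ℤ)) ∉ S.D ∧ S.e0 ≠ Sum.inr (a, -1))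
    {a : ℤ} (h1 : x < a) (h2 : a ≤ c) : u (a, 0) = u (ls S.tip) := by
  obtain ⟨n, hn⟩ : ∃ n : ℕ, (n : ℤ) = a - (x + 1) := ⟨(a - (x + 1)).toNat, by omega⟩
  have key : ∀ n : ℕ, x + 1 + (n : ℤ) ≤ c → u (x + 1 + n, 0) = u (ls S.tip) := by
    intro n
    induction n with
    | zero =>
      intro _
      rw [← (side_vals H hu).1]
      simp
    | succ n ih =>
      intro hn
      obtain ⟨k1, k2, k3⟩ := hc (x + 1 + n) (by omega) (by push_cast at hn; omega)
      rw [← ih (by push_cast at hn; omega), bot_step H hu k1 k2 k3 (by omega)]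
      push_cast
      rw [add_assoc (x + 1)]
  have := key n (by omega)
  rw [show x + 1 + (n : ℤ) = a by omega] at this
  exact this

/-- **The value of the right bank at the bottom in the west.** -/
theorem bot_west (H : Tp S x h) (hu : Pt0 S x h u) {c : ℤ}
    (hc : ∀ a, c ≤ a → a < x → (a, (0 : ℤ)) ∈ S.D ∧ (a, (-1 : ℤ)) ∉ S.D ∧ S.e0 ≠ Sum.inr (a, -1))
    {a : ℤ} (h1 : a ≤ x) (h2 : c ≤ a) : u (a, 0) = u (rs S.tip) := by
  obtain ⟨n, hn⟩ : ∃ n : ℕ, (n : ℤ) = x - a := ⟨(x - a).toNat, by omega⟩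
  have key : ∀ n : ℕ, c ≤ x - (n : ℤ) → u (x - n, 0) = u (rs S.tip) := by
    intro n
    induction n with
    | zero =>
      intro _
      rw [← (side_vals H hu).2]
      simp
    | succ n ih =>
      intro hn
      obtain ⟨k1, k2, k3⟩ := hc (x - (n + 1 : ℕ)) hn (by push_cast; omega)
      rw [bot_step H hu k1 k2 k3 (by push_cast; omega), ← ih (by push_cast at hn; omega)]
      push_cast
      congr 2
      ring
  have := key n (by omega)
  rw [show x - (n : ℤ) = a by omega] at this
  exact this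

end Vale.Agent.P167.H192.ArcP
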