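import Vale.Agent.P167.H192.Q.Exp

/-!
# P167, general `q`: fresh crossings of half annuli after the exploration of the clusters of a ray
-/

namespace Vale.Agent.P167.H192.Q

open Finset Relation Vale.Agent.P167 Vale.Agent.P167.FK Vale.Agent.P167.FKA Vale.Agent.P167.H192.TA
  Vale.Agent.P167.H632 Vale.Agent.P167.H558 Vale.Agent.P167.H871
open Vale.Agent.P145.FB (PStep PConn)
open Vale.Agent.P167.H259 (f_markov f_fkg f_comp f_comp2 Ex_out cf_cf PC_mono)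

variable {Q : ℝ} {D A : Finset (ℤ × ℤ)} {η η' : Cfg} {F G : Cfg → ℝ} {c : Bool} {b : ℤ × ℤ}
  {r R m1 m2 : ℤ}

/-- The squares of `B` off `A` of the colour `c` do not touch the squares of `A`. -/
def Skin (c : Bool) (A B : Finset (ℤ × ℤ)) (ω : Cfg) : Prop :=
  ∀ v ∈ B, v ∉ A → ω v = c → ∀ a ∈ A, ∀ u : ℤ × ℤ, (u.1 + u.2) % 2 = pr c → Cor v u → ¬ Cor a u

theorem cf_inn {A : Finset (ℤ × ℤ)} {ω : Cfg} {S : Finset (ℤ × ℤ)} {v : ℤ × ℤ} (h : v ∈ A) :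
    cf A ω S v = decide (v ∈ S) := H519.cf_in h

theorem skin_path {ω ω' : Cfg} (hs : Skin c A (dF b r R) ω)
    (T : Finset (ℤ × ℤ)) {u : ℤ × ℤ} (hu : ∃ a ∈ A, Cor a u) (hup : (u.1 + u.2) % 2 = pr c)
    {w : ℤ × ℤ} (h : Pw (cs c (cf A ω T)) u w) :
    (Pw (cs c (cf A ω' T)) u w ∧ ∃ a ∈ A, Cor a w) ∨
      (∃ o ∈ So b r R, (o.1 + o.2) % 2 = pr c ∧ Pw (cs c (cf A ω' T)) u o) := by
  induction h with
  | refl => exact Or.inl ⟨ReflTransGen.refl, hu⟩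
  | @tail x y hx hxy ih =>
    rcases ih with ⟨h1, a, ha, hax⟩ | h1
    · obtain ⟨q, hq⟩ : ∃ q : ℤ × ℤ, q = (min x.1 y.1, min x.2 y.2) := ⟨_, rfl⟩
      have hc := cor_of_step hxy
      have hcol : cf A ω T q = c := by rw [hq]; exact hxy.2.2
      rw [← hq] at hc
      have hxp : (x.1 + x.2) % 2 = pr c := by rw [← hup]; exact (Pw.parity hx).symm
      by_cases hqA : q ∈ A
      · refine Or.inl ⟨h1.tail ⟨hxy.1, hxy.2.1, ?_⟩, q, hqA, hc.2⟩
        rw [← hq]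
        show cf A ω' T q = c
        rw [cf_inn hqA] at hcol ⊢
        exact hcol
      · rw [cf_out hqA] at hcol
        by_cases hqB : q ∈ dF b r R
        · exact absurd hax (hs q hqB hqA hcol a ha x hxp hc.1)
        · exact Or.inr ⟨x, so_of_cor (fun h => hqB (mem_dF.2 h)) hc.1, hxp, h1⟩
    · exact Or.inr h1

/-- **Comparison with the whole half annulus.** -/
theorem comp_skin (hQ : 1 ≤ Q) (hr : 1 ≤ r) (hA : A ⊆ dF b r R) {ω : Cfg} (hω : Good ω)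
    (hs : Skin c A (dF b r R) ω) (hF : MonC c F) (hL : Loc A F) :
    Ex Q A ω F ≤ Ex Q (dF b r R) (etac c) F := by
  have hQ0 : 0 < Q := by linarith
  rw [f_markov Q A (dF b r R) (etac c) F hQ0 hA (good_etac c),
    ← Ex_const (Q := Q) (D := dF b r R) (η := etac c) hQ0 (Ex Q A ω F)]
  refine Ex_mono hQ0 fun S _ => ?_
  refine comp2c hQ c hω (f_good.1 _ _ _ (good_etac c)) ?_ hF hL
  intro T a u v ha hau hav hu hv h
  set ω' := cf (dF b r R) (etac c) S with hω'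
  rcases skin_path (ω' := ω') hs T ⟨a, ha, hau⟩ hu h with ⟨h1, -⟩ | ⟨o, ho, hop, h1⟩
  · exact h1
  · rcases skin_path (ω' := ω') hs T ⟨a, ha, hav⟩ hv (Pw.symm h) with ⟨h2, -⟩ |
      ⟨o', ho', hop', h2⟩
    · exact Pw.symm h2
    · have h3 : Pw (cs c (cf A ω' T)) o o' := by
        refine (conn_out hr (by omega) ho ho').mono ?_
        intro q hq
        have hqB : q ∉ dF b r R := fun h => hq (mem_dF.1 h)
        show cf A ω' T q = c
        rw [cf_out (fun h => hqB (hA h)), hω', cf_out hqB]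
        rfl
      exact (h1.trans h3).trans (Pw.symm h2)

/-! ### Crossings with squares off an explored set -/

/-- Crossing of colour `c` of the half annulus with squares off `O`. -/
def Xo (c : Bool) (O : Finset (ℤ × ℤ)) (b : ℤ × ℤ) (r R : ℤ) : Set Cfg :=
  {ω | ∃ y y', y ∈ sr b r R ∧ (y.1 + y.2) % 2 = pr c ∧ nm (y - b) ≤ r ∧
    Pw (cs c ω ∩ (dq b r R \ ↑O)) y y' ∧ R ≤ nm (y' - b)}

theorem Xo_sub (O : Finset (ℤ × ℤ)) : Xo c O b r R ⊆ Xc c b r R := by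
  rintro ω ⟨y, y', h1, h2, h3, h4, h5⟩
  exact ⟨y, y', h1, h2, h3, h4.mono (Set.inter_subset_inter_right _ Set.sdiff_subset), h5⟩

theorem ind_imp {A : Set Cfg} {ω ω' : Cfg} (h : ω ∈ A → ω' ∈ A) :
    A.indicator (1 : Cfg → ℝ) ω ≤ A.indicator 1 ω' := by
  by_cases h1 : ω ∈ A
  · rw [Set.indicator_of_mem h1, Set.indicator_of_mem (h h1)]
    exact le_refl (1 : ℝ)
  · rw [Set.indicator_of_notMem h1]
    exact ind_nonneg _ _

theorem mon_Xo (O : Finset (ℤ × ℤ)) : MonC c ((Xo c O b r R).indicator 1) := by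
  intro ω ω' h
  refine ind_imp ?_
  rintro ⟨y, y', h1, h2, h3, h4, h5⟩
  refine ⟨y, y', h1, h2, h3, h4.mono ?_, h5⟩
  rintro v ⟨hv1, hv2⟩
  exact ⟨h v hv1, hv2⟩

theorem Xo_congr (O : Finset (ℤ × ℤ)) {ω ω' : Cfg} (h : ∀ v ∈ dF b r R \ O, ω v = ω' v)
    (h1 : ω ∈ Xo c O b r R) : ω' ∈ Xo c O b r R := by
  obtain ⟨y, y', h1, h2, h3, h4, h5⟩ := h1
  refine ⟨y, y', h1, h2, h3, h4.mono ?_, h5⟩
  intro v hv
  have := h v (Finset.mem_sdiff.2 ⟨mem_dF.2 hv.2.1, fun h' => hv.2.2 (Finset.mem_coe.2 h')⟩)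
  refine ⟨?_, hv.2⟩
  show ω' v = c
  rw [← this]
  exact hv.1

theorem loc_Xo (O : Finset (ℤ × ℤ)) : Loc (dF b r R \ O) ((Xo c O b r R).indicator 1) := by
  intro ω ω' h
  by_cases h1 : ω ∈ Xo c O b r R
  · rw [Set.indicator_of_mem h1, Set.indicator_of_mem (Xo_congr O h h1)]
    rfl
  · rw [Set.indicator_of_notMem h1,
      Set.indicator_of_notMem fun h2 => h1 (Xo_congr O (fun v hv => (h v hv).symm) h2)]

theorem fresh_le (hQ : 1 ≤ Q) (hr : 1 ≤ r) {O : Finset (ℤ × ℤ)} {ω : Cfg} (hω : Good ω)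
    (hs : Skin c (dF b r R \ O) (dF b r R) ω) :
    Pr Q (dF b r R \ O) ω (Xo c O b r R) ≤ pX Q c b r R := by
  have hQ0 : 0 < Q := by linarith
  exact (comp_skin hQ hr Finset.sdiff_subset hω hs (mon_Xo O) (loc_Xo O)).trans
    (Pr_mono hQ0 (Xo_sub O))

/-! ### The skin of the explored clusters -/

/-- The opposite corner. -/
theorem lkk_of_cor {a u : ℤ × ℤ} (h : Cor a u) :
    lkk a u (2 * a.1 + 1 - u.1, 2 * a.2 + 1 - u.2) := by
  unfold Cor at h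
  refine ⟨by dsimp only; omega, by dsimp only; omega, ?_⟩
  rw [Set.mem_singleton_iff]
  exact Prod.ext (by dsimp only; omega) (by dsimp only; omega)

theorem cor_of_lkk {a u v : ℤ × ℤ} (h : lkk a u v) : Cor a u ∧ Cor a v := by
  have h1 := cor_of_step h
  have h2 : (min u.1 v.1, min u.2 v.2) = a := h.2.2
  rw [h2] at h1
  exact h1

theorem skin_Rl {r0 R0 : ℤ} {B : Set (ℤ × ℤ)} (hB : ∀ p ∈ B, (p.1 + p.2) % 2 = pr c)
    (hdd : dF b r R ⊆ dF b r0 R0) {ω0 ω : Cfg} (hω : ∀ v ∈ Rl c b r0 R0 B ω0, ω v = ω0 v) :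
    Skin c (dF b r R \ Rl c b r0 R0 B ω0) (dF b r R) ω := by
  intro v hv hvA hvc a ha u hu hvu hau
  have hvR : v ∈ Rl c b r0 R0 B ω0 := by
    by_contra h
    exact hvA (Finset.mem_sdiff.2 ⟨hv, h⟩)
  rw [hω v hvR] at hvc
  obtain ⟨hvF, u0, hu0, v0, huv0⟩ := mem_Rv.1 hvR
  have hpu0 : (u0.1 + u0.2) % 2 = pr c := by
    obtain ⟨p, hp, hpp⟩ := mem_Kl.1 (show u0 ∈ Kl c b r0 R0 B ω0 from hu0)
    rw [← hB p hp]
    exact hpp.parity.symm
  have huK : u ∈ Kl c b r0 R0 B ω0 := by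
    rcases diag_eq huv0 (lkk_of_cor hvu) (by omega) with e | e
    · rw [← e]; exact hu0
    · rw [← e]
      exact Cl_step hu0 (Or.inr ⟨v, hvF, hvc, huv0⟩)
  refine (Finset.mem_sdiff.1 ha).2 (mem_Rv.2 ⟨hdd (Finset.mem_sdiff.1 ha).1, u, huK, _,
    lkk_of_cor hau⟩)

/-! ### The deterministic step -/

/-- The explored squares get the colour `!c`. -/
noncomputable def kill (c : Bool) (O : Finset (ℤ × ℤ)) (ω : Cfg) : Cfg := by
  classical exact fun v => if v ∈ O then !c else ω v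

theorem kill_in {O : Finset (ℤ × ℤ)} {ω : Cfg} {v : ℤ × ℤ} (h : v ∈ O) : kill c O ω v = !c := by
  unfold kill; exact if_pos h

theorem kill_out {O : Finset (ℤ × ℤ)} {ω : Cfg} {v : ℤ × ℤ} (h : v ∉ O) : kill c O ω v = ω v := by
  unfold kill; exact if_neg h

theorem kill_HC {O : Finset (ℤ × ℤ)} {ω : Cfg} (h : ω ∉ Xo c O b r R) :
    kill c O ω ∈ HC (!c) b r R := by
  rw [HC_eq, Bool.not_not]
  intro hx
  refine h ?_
  obtain ⟨y, y', h1, h2, h3, h4, h5⟩ := Xc_of_HX hx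
  refine ⟨y, y', h1, h2, h3, h4.mono ?_, h5⟩
  rintro v ⟨hv1, hv2⟩
  have hv1' : kill c O ω v = c := hv1
  by_cases hvO : v ∈ O
  · rw [kill_in hvO] at hv1'
    cases c <;> simp at hv1'
  · rw [kill_out hvO] at hv1'
    exact ⟨hv1', hv2, fun h' => hvO (Finset.mem_coe.1 h')⟩

theorem det_arc {s : Bool} (hr : 1 ≤ r) (h1 : r < m1) (h12 : m1 ≤ m2) (h2 : m2 ≤ R) {ω : Cfg}
    (hY : ∀ q ∈ Kl c b r R (ray s c b r R) ω, q ∉ ray (!s) c b r R)
    (hi : ω ∉ Xo c (Rl c b r R (ray s c b r R) ω) b r m1)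
    (ho : ω ∉ Xo c (Rl c b r R (ray s c b r R) ω) b m2 R) :
    ω ∈ Pe (!s) (!c) b r R m1 m2 := by
  have h := fresh_arc (ω' := kill c (Rl c b r R (ray s c b r R) ω) ω) hr h1 h12 h2 hY
    (kill_HC hi) (kill_HC ho)
  have e : glue (↑(Rl c b r R (ray s c b r R) ω)) ω (kill c (Rl c b r R (ray s c b r R) ω) ω) =
      ω := by
    funext v
    by_cases hv : v ∈ Rl c b r R (ray s c b r R) ω
    · rw [glue_mem (Finset.mem_coe.2 hv)]
    · rw [glue_not_mem (fun h => hv (Finset.mem_coe.1 h)), kill_out hv]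
  rwa [e] at h

theorem Rl_sub {B : Set (ℤ × ℤ)} (ω : Cfg) : Rl c b r R B ω ⊆ dF b r R := Rv_subset ω

theorem dq_mono {r' R' : ℤ} (h1 : r ≤ r') (h2 : R' ≤ R) : dq b r' R' ⊆ dq b r R := by
  intro v hv
  simp only [dq, Set.mem_ofPred_eq] at hv ⊢
  omega

theorem dF_mono {r' R' : ℤ} (h1 : r ≤ r') (h2 : R' ≤ R) : dF b r' R' ⊆ dF b r R := fun _ hv =>
  mem_dF.2 (dq_mono h1 h2 (mem_dF.1 hv))

/-- No fresh crossing of two half annuli. -/
theorem two_fresh (hQ : 1 ≤ Q) (hr : 1 ≤ r) (h1 : r < m1) (h12 : m1 ≤ m2) (h2 : m2 ≤ R) {p : ℝ}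
    (hp1 : p ≤ 1) (hX1 : pX Q c b r m1 ≤ p) (hX2 : pX Q c b m2 R ≤ p) (hD : dF b r R ⊆ D)
    {B : Set (ℤ × ℤ)} (hB : ∀ p ∈ B, (p.1 + p.2) % 2 = pr c) {ω : Cfg} (hω : Good ω) :
    (1 - p) ^ 2 ≤ Ex Q (D \ Rl c b r R B ω) ω (fun ω' =>
      (Xo c (Rl c b r R B ω) b r m1)ᶜ.indicator 1 ω' *
        (Xo c (Rl c b r R B ω) b m2 R)ᶜ.indicator 1 ω') := by
  have hQ0 : 0 < Q := by linarith
  set O := Rl c b r R B ω with hO
  have key : ∀ (r' R' : ℤ), 1 ≤ r' → r ≤ r' → R' ≤ R → pX Q c b r' R' ≤ p → ∀ T,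
      1 - p ≤ Ex Q (dF b r' R' \ O) (cf (D \ O) ω T) ((Xo c O b r' R')ᶜ.indicator 1) := by
    intro r' R' k1 k2 k3 k4 T
    have k5 := fresh_le hQ k1 (O := O) (c := c) (b := b) (R := R')
      (f_good.1 (D \ O) ω T hω) (skin_Rl hB (dF_mono k2 k3) fun v hv => by
        rw [cf_out fun h => (Finset.mem_sdiff.1 h).2 hv])
    have k6 := Pr_compl (Q := Q) (D := dF b r' R' \ O) (η := cf (D \ O) ω T) hQ0 (Xo c O b r' R')
    unfold Pr at k5 k6
    rw [k6]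
    linarith
  have hsub : ∀ r' R' : ℤ, r ≤ r' → R' ≤ R → dF b r' R' \ O ⊆ D \ O := fun r' R' k1 k2 =>
    Finset.sdiff_subset_sdiff ((dF_mono k1 k2).trans hD) le_rfl
  have hind : Ind (dF b r m1 \ O) ((Xo c O b m2 R)ᶜ.indicator (1 : Cfg → ℝ)) := by
    have h3 : Loc (dF b m2 R \ O) ((Xo c O b m2 R)ᶜ.indicator (1 : Cfg → ℝ)) := by
      intro ω ω' h
      rw [ind_compl, ind_compl, loc_Xo O ω ω' h]
    refine h3.ind ?_
    rw [Finset.disjoint_left]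
    intro v hv hv'
    have a1 := mem_dF.1 (Finset.mem_sdiff.1 hv).1
    have a2 := mem_dF.1 (Finset.mem_sdiff.1 hv').1
    simp only [dq, Set.mem_ofPred_eq] at a1 a2
    omega
  have e : (fun ω' => (Xo c O b r m1)ᶜ.indicator (1 : Cfg → ℝ) ω' *
      (Xo c O b m2 R)ᶜ.indicator 1 ω') = fun ω' => (Xo c O b m2 R)ᶜ.indicator (1 : Cfg → ℝ) ω' *
      (Xo c O b r m1)ᶜ.indicator 1 ω' := by
    funext ω'
    ring
  rw [e, markov f_markov hQ0 (A := dF b r m1 \ O) (hsub r m1 le_rfl (by omega)) hω hind]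
  have h3 : (1 - p) * Ex Q (D \ O) ω ((Xo c O b m2 R)ᶜ.indicator 1) ≤
      Ex Q (D \ O) ω (fun ω' => (Xo c O b m2 R)ᶜ.indicator (1 : Cfg → ℝ) ω' *
        Ex Q (dF b r m1 \ O) ω' ((Xo c O b r m1)ᶜ.indicator 1)) := by
    rw [← Ex_mul_left]
    refine Ex_mono hQ0 fun T _ => ?_
    rw [mul_comm (1 - p)]
    exact mul_le_mul_of_nonneg_left (key r m1 hr le_rfl (by omega) hX1 T) (ind_nonneg _ _)
  have h4 : 1 - p ≤ Ex Q (D \ O) ω ((Xo c O b m2 R)ᶜ.indicator 1) := by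
    rw [f_markov Q (dF b m2 R \ O) (D \ O) ω _ hQ0 (hsub m2 R (by omega) le_rfl) hω,
      ← Ex_const (Q := Q) (D := D \ O) (η := ω) hQ0 (1 - p)]
    exact Ex_mono hQ0 fun T _ => key m2 R (by omega) (by omega) le_rfl hX2 T
  refine le_trans ?_ h3
  rw [sq]
  exact mul_le_mul_of_nonneg_left h4 (by linarith)

/-- **One stage.** -/
theorem stageQ (hQ : 1 ≤ Q) {s : Bool} (hr : 1 ≤ r) (h1 : r < m1) (h12 : m1 ≤ m2) (h2 : m2 ≤ R)
    {p : ℝ} (hp1 : p ≤ 1) (hX1 : pX Q c b r m1 ≤ p) (hX2 : pX Q c b m2 R ≤ p)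
    (hD : dF b r R ⊆ D) (hη : Good η) {Y : Cfg → Prop}
    (hYp : Past (Rl c b r R (ray s c b r R)) Y)
    (hY : ∀ ω, Y ω → ∀ q ∈ Kl c b r R (ray s c b r R) ω, q ∉ ray (!s) c b r R) :
    (1 - p) ^ 2 * Pr Q D η {ω | Y ω} ≤ Pr Q D η ({ω | Y ω} ∩ Pe (!s) (!c) b r R m1 m2) := by
  have hQ0 : 0 < Q := by linarith
  set O : Cfg → Finset (ℤ × ℤ) := fun ω => Rl c b r R (ray s c b r R) ω with hO
  have hst : StopSet O := stop_Rl
  set H : Cfg → ℝ := fun ω => (Xo c (O ω) b r m1)ᶜ.indicator 1 ω * (Xo c (O ω) b m2 R)ᶜ.indicator 1 ω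
    with hH
  have hG : Past O ({ω | Y ω}.indicator (1 : Cfg → ℝ)) := by
    intro ω ω' h
    have h3 : Y ω' = Y ω := hYp ω ω' h
    have h4 : ω' ∈ {ω | Y ω} ↔ ω ∈ {ω | Y ω} := by
      show Y ω' ↔ Y ω
      rw [h3]
    by_cases h5 : ω ∈ {ω | Y ω}
    · rw [Set.indicator_of_mem h5, Set.indicator_of_mem (h4.2 h5)]
      rfl
    · rw [Set.indicator_of_notMem h5, Set.indicator_of_notMem fun h6 => h5 (h4.1 h6)]
  have h3 : Ex Q D η (fun ω => {ω | Y ω}.indicator 1 ω * H ω) ≤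
      Pr Q D η ({ω | Y ω} ∩ Pe (!s) (!c) b r R m1 m2) := by
    refine Ex_mono hQ0 fun S _ => ?_
    rw [ind_inter]
    by_cases hYS : cf D η S ∈ {ω | Y ω}
    · refine mul_le_mul_of_nonneg_left ?_ (ind_nonneg _ _)
      by_cases g1 : cf D η S ∈ (Xo c (O (cf D η S)) b r m1)ᶜ
      · by_cases g2 : cf D η S ∈ (Xo c (O (cf D η S)) b m2 R)ᶜ
        · have g3 := det_arc hr h1 h12 h2 (hY _ hYS) g1 g2
          rw [Set.indicator_of_mem g3]
          simp only [hH]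
          rw [Set.indicator_of_mem g1, Set.indicator_of_mem g2]
          simp
        · simp only [hH]
          rw [Set.indicator_of_notMem g2, mul_zero]
          exact ind_nonneg _ _
      · simp only [hH]
        rw [Set.indicator_of_notMem g1, zero_mul]
        exact ind_nonneg _ _
    · rw [Set.indicator_of_notMem hYS]
      simp
  refine le_trans ?_ h3
  unfold Pr
  rw [stop_markov hQ0 hη hst hG (fun ω => (Rl_sub ω).trans hD), ← Ex_mul_left]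
  refine Ex_mono hQ0 fun S _ => ?_
  rw [mul_comm]
  refine mul_le_mul_of_nonneg_left ?_ (ind_nonneg _ _)
  set ω := cf D η S with hω
  have hg : Good ω := f_good.1 D η S hη
  refine (two_fresh hQ hr h1 h12 h2 hp1 hX1 hX2 hD (B := ray s c b r R)
    (fun p hp => hp.2.2.2) hg).trans (le_of_eq ?_)
  refine Ex_congr fun T _ => ?_
  have h5 : O (cf (D \ O ω) ω T) = O ω := hst ω _ fun i hi => by
    rw [cf_out fun h => (Finset.mem_sdiff.1 h).2 hi]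
  simp only [hH]
  rw [h5]

end Vale.Agent.P167.H192.Q
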