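import Vale.Agent.P167.H167.Q.Rat

/-!
# P167, general `q`: ratio mixing at a free boundary of any shape

`D` is any finite set of squares and the configuration outside of `D` is closed in the box `(x, R)`.
-/

namespace Vale.Agent.P167.H192.Q

open Finset Relation Vale.Agent.P167.FK Vale.Agent.P167.FKA
open Vale.Agent.P145.FB (PStep PConn)
open Vale.Agent.P167.H259 (f_markov f_fkg f_comp f_comp2 Ex_out cf_cf PC_mono)
open Vale.Agent.P167.H519 (Rat Sx Jn cf_in loc_mono pc_of_cor ind_le_of_imp gen_comp)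
open Vale.Agent.P167.H562.GL (near_of_corx far_of_corx)

variable {Q : ℝ} {x : ℤ × ℤ} {r ρ R : ℤ} {A V V' : Finset (ℤ × ℤ)} {F G : Cfg → ℝ} {ξ ξ' : Cfg}
  {p : ℝ}

/-- The configuration is closed on the part of the box `(x, R)` outside of `A`. -/
def Fr (x : ℤ × ℤ) (R : ℤ) (A : Finset (ℤ × ℤ)) (ξ : Cfg) : Prop :=
  ∀ v ∈ Bq x R, v ∉ A → ξ v = false

theorem Fr.mono (h : Fr x R A ξ) (hr : r ≤ R) : Fr x r A ξ := fun v hv hvA =>
  h v (H167.Q.bq_mono hr hv) hvA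

theorem fr_eta0 : Fr x R A eta0 := fun _ _ _ => rfl

/-- Smaller domains which contain the part of `A` in a smaller box. -/
theorem Fr.cf (h : Fr x R A ξ) (hr : r ≤ R) {B : Finset (ℤ × ℤ)} (hB : A ∩ Bq x r ⊆ B)
    (S : Finset (ℤ × ℤ)) : Fr x r B (cf A ξ S) := by
  intro v hv hvB
  have hvA : v ∉ A := fun h' => hvB (hB (Finset.mem_inter.2 ⟨h', hv⟩))
  rw [cf_out hvA]
  exact h v (H167.Q.bq_mono hr hv) hvA

/-- Arm probabilities are smaller next to a free boundary. -/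
theorem pr_arm_bdy (hQ : 1 ≤ Q) (hp : Pr Q (Bq x R \ Bq x r) eta1 {ω | ArmPx x r R ω} ≤ p)
    {A0 : Finset (ℤ × ℤ)} (hA0 : A0 ⊆ Bq x R \ Bq x r) {τ : Cfg} (hτ : Good τ)
    (hc : ∀ v ∈ Bq x R \ Bq x r, v ∉ A0 → τ v = false) :
    Pr Q A0 τ {ω | ArmPx x r R ω} ≤ p := by
  have hQ0 : 0 < Q := by linarith
  refine le_trans ?_ hp
  have h1 : Pr Q A0 τ {ω | ArmPx x r R ω} = Pr Q A0 (cf A0 τ ∅) {ω | ArmPx x r R ω} :=
    Ex_out (fun v hv => by rw [cf_out hv]) _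
  rw [h1]
  have h2 := f_markov Q A0 (Bq x R \ Bq x r) eta1 ({ω | ArmPx x r R ω}.indicator 1) hQ0 hA0
    f_good.2.2
  unfold Pr
  rw [h2, ← Ex_const (Q := Q) (D := Bq x R \ Bq x r) (η := eta1) hQ0
    (Ex Q A0 (cf A0 τ ∅) ({ω | ArmPx x r R ω}.indicator 1))]
  refine Ex_mono hQ0 fun S _ => ?_
  refine f_comp Q A0 _ _ _ hQ (f_good.1 _ _ _ hτ) (f_good.1 _ _ _ f_good.2.2) (fun v hv => ?_)
    (inc_arm x r R).incF
  by_cases h : v ∈ A0
  · rw [cf_in h] at hv; simp at hv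
  · rw [cf_out h] at hv
    have h3 : v ∉ Bq x R \ Bq x r := fun h' => by rw [hc v h' h] at hv; simp at hv
    rw [cf_out h3]; rfl

theorem ex_arm_bdy (hQ : 1 ≤ Q) (hp : Pr Q (Bq x R \ Bq x r) eta1 {ω | ArmPx x r R ω} ≤ p)
    (hξ : Good ξ) (hfr : Fr x R A ξ) (hF0 : ∀ ω, 0 ≤ F ω)
    (hF : Ind (A ∩ (Bq x R \ Bq x r)) F) :
    Ex Q A ξ (fun ω => F ω * {ω | ArmPx x r R ω}.indicator 1 ω) ≤ p * Ex Q A ξ F := by
  have hQ0 : 0 < Q := by linarith
  rw [markov f_markov hQ0 (A := A ∩ (Bq x R \ Bq x r)) Finset.inter_subset_left hξ hF,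
    ← Ex_mul_left]
  refine Ex_mono hQ0 fun S _ => ?_
  rw [mul_comm p]
  refine mul_le_mul_of_nonneg_left ?_ (hF0 _)
  refine pr_arm_bdy hQ hp Finset.inter_subset_right (f_good.1 A ξ S hξ) fun v hv hvA => ?_
  have h1 : v ∉ A := fun h => hvA (Finset.mem_inter.2 ⟨h, hv⟩)
  rw [cf_out h1]
  exact hfr v (Finset.mem_sdiff.1 hv).1 h1

/-- A connection with the outside of `A` gives an arm. -/
theorem arm_of_jn (hrR : r ≤ R) (hVr : V ⊆ Bq x r) (hfr : Fr x R A ξ) {ω : Cfg}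
    (h : Jn (Sx A ξ) V ω) : ArmPx x r R ω := by
  obtain ⟨s, ⟨hse, v, hvA, hv, hvs⟩, u, ⟨w, hw, hwu⟩, hsu⟩ := h
  have hvR : v ∉ Bq x R := fun h' => by rw [hfr v h' hvA] at hv; simp at hv
  rw [armPx_iff hrR]
  refine ⟨u, s, ?_, near_of_corx (hVr hw) hwu, far_of_corx hvR hvs, H519.conn_symm hsu⟩
  have := rtg_parity hsu
  rw [Int.even_iff] at *
  omega

/-- **Up**: the larger boundary condition. -/
theorem up_bdy (hQ : 1 ≤ Q) (hrR : r ≤ R)
    (hp : Pr Q (Bq x R \ Bq x r) eta1 {ω | ArmPx x r R ω} ≤ p) (hVA : V ⊆ A) (hV : V ⊆ Bq x r)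
    (hF0 : ∀ ω, 0 ≤ F ω) (hFV : Loc V F) (hξ : Good ξ) (hξ' : Good ξ')
    (hle : ∀ v, v ∉ A → ξ v = true → ξ' v = true) (hfr : Fr x R A ξ') :
    (1 - p) * Ex Q A ξ' F ≤ Ex Q A ξ F := by
  have hQ0 : 0 < Q := by linarith
  have h4 := gen_comp hQ hF0 hFV A.card A ξ ξ' rfl hVA hξ hξ' hle
  have h5 := ex_arm_bdy hQ hp hξ' hfr hF0 (F := F) (fun τ τ' h => hFV τ τ' fun v hv => h v
    fun h' => (Finset.mem_sdiff.1 (Finset.mem_inter.1 h').2).2 (hV hv))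
  have h6 : Ex Q A ξ' (fun τ => F τ * (1 - {τ | Jn (Sx A ξ') V τ}.indicator 1 τ)) =
      Ex Q A ξ' F - Ex Q A ξ' (fun τ => F τ * {τ | Jn (Sx A ξ') V τ}.indicator 1 τ) := by
    rw [← Ex_sub]
    refine Ex_congr fun S _ => ?_
    ring
  have h7 : Ex Q A ξ' (fun τ => F τ * {τ | Jn (Sx A ξ') V τ}.indicator 1 τ) ≤
      Ex Q A ξ' (fun τ => F τ * {τ | ArmPx x r R τ}.indicator 1 τ) :=
    Ex_mono hQ0 fun S _ => mul_le_mul_of_nonneg_left (ind_le_of_imp fun h =>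
      arm_of_jn hrR hV hfr h) (hF0 _)
  rw [h6] at h4
  linarith

/-- If no open square outside of `A` touches `A`, the boundary condition is the free one. -/
theorem ex_eq_free (hQ : 1 ≤ Q) (hξ : Good ξ) (he : ∀ e ∈ A, ∀ c ∈ Sx A ξ, ¬ Cor e c)
    (hF : Loc A F) : Ex Q A ξ F = Ex Q A eta0 F := by
  have hQ0 : 0 < Q := by linarith
  have hm : ∀ (S : Finset (ℤ × ℤ)) (a : ℤ × ℤ), a ∈ A → ∀ u, PC (FK.cf A ξ S) (FK.pa a) u →
      PC (FK.cf A eta0 S) (FK.pa a) u ∧ (∃ v ∈ A, Cor v u) ∧ Even (u.1 + u.2) := by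
    intro S a ha u hu
    induction hu with
    | refl => exact ⟨ReflTransGen.refl, ⟨a, ha, (cor_pa a).1⟩, (cor_pa a).2⟩
    | @tail u w _ huw ih =>
      obtain ⟨h1, ⟨v, hvA, hvu⟩, h2⟩ := ih
      have hcw := cor_of_step huw
      have hm : FK.cf A ξ S (min u.1 w.1, min u.2 w.2) = true := huw.2.2
      have hwe : Even (w.1 + w.2) := (FKA.even_step huw).1 h2
      by_cases hmA : (min u.1 w.1, min u.2 w.2) ∈ A
      · refine ⟨h1.tail ⟨huw.1, huw.2.1, ?_⟩, ⟨_, hmA, hcw.2⟩, hwe⟩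
        show FK.cf A eta0 S _ = true
        rw [cf_in hmA] at hm ⊢
        exact hm
      · exfalso
        rw [cf_out hmA] at hm
        exact he v hvA u ⟨h2, _, hmA, hm, hcw.1⟩ hvu
  refine H167.Q.Ex_eq_of_PC hQ0 hξ f_good.2.1 (fun S _ a ha _ => ⟨fun h => (hm S a ha _ h).1,
    fun h => PC_mono (fun v hv => ?_) h⟩) hF
  by_cases h : v ∈ A
  · rw [cf_in h] at hv ⊢; exact hv
  · rw [cf_out h] at hv; exact absurd hv (by simp [eta0])

/-- **Exploration from outside**: on the event that `V'` is not connected with the outside. -/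
theorem low_ind (hQ : 1 ≤ Q) (hVV : V ⊆ V') (hFV : Loc V F) {c : ℝ} : ∀ (n : ℕ)
    (A : Finset (ℤ × ℤ)) (τ : Cfg), A.card = n → V' ⊆ A → Good τ →
    (∀ B, V' ⊆ B → B ⊆ A → c ≤ Ex Q B eta0 F) →
    0 ≤ Ex Q A τ (fun ω => (F ω - c) * (1 - {ω | Jn (Sx A τ) V' ω}.indicator 1 ω)) := by
  have hQ0 : 0 < Q := by linarith
  -- the case that no square touches the outside
  have term : ∀ (A : Finset (ℤ × ℤ)) (τ : Cfg), V' ⊆ A → Good τ →
      (∀ B, V' ⊆ B → B ⊆ A → c ≤ Ex Q B eta0 F) → (∀ e ∈ A, ∀ c ∈ Sx A τ, ¬ Cor e c) →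
      0 ≤ Ex Q A τ (fun ω => (F ω - c) * (1 - {ω | Jn (Sx A τ) V' ω}.indicator 1 ω)) := by
    intro A τ hVA hτ hB he
    have hjn : ∀ S, ¬ Jn (Sx A τ) V' (cf A τ S) := by
      rintro S ⟨s, hs, u, ⟨w, hw, hwu⟩, hsu⟩
      have key : u ∈ Sx A τ := by
        clear hwu
        unfold PC at hsu
        induction hsu with
        | refl => exact hs
        | @tail y z _ hyz ih =>
          have ih' : y ∈ Sx A τ := ih
          have hcz := cor_of_step hyz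
          have hm : cf A τ S (min y.1 z.1, min y.2 z.2) = true := hyz.2.2
          by_cases hmA : (min y.1 z.1, min y.2 z.2) ∈ A
          · exact absurd hcz.1 (he _ hmA y ih')
          · rw [cf_out hmA] at hm
            exact ⟨(FKA.even_step hyz).1 ih'.1, _, hmA, hm, hcz.2⟩
      exact he w (hVA hw) u key hwu
    have h1 : Ex Q A τ (fun ω => (F ω - c) * (1 - {ω | Jn (Sx A τ) V' ω}.indicator 1 ω)) =
        Ex Q A τ F - c := by
      rw [← Ex_const (Q := Q) (D := A) (η := τ) hQ0 c, ← Ex_sub, Ex_const hQ0]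
      refine Ex_congr fun S _ => ?_
      rw [Set.indicator_of_notMem (show cf A τ S ∉ {ω | Jn (Sx A τ) V' ω} from hjn S)]
      ring
    rw [h1, ex_eq_free hQ hτ he (loc_mono (hVV.trans hVA) hFV)]
    have := hB A hVA subset_rfl
    linarith
  intro n
  induction n with
  | zero =>
    intro A τ hn hVA hτ hB
    rw [Finset.card_eq_zero] at hn
    subst hn
    exact term ∅ τ hVA hτ hB fun e he => absurd he (by simp)
  | succ n ih =>
    intro A τ hn hVA hτ hB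
    by_cases he : ∃ e ∈ A, ∃ c ∈ Sx A τ, Cor e c
    · obtain ⟨e, heA, d, hd, hed⟩ := he
      by_cases heV : e ∈ V'
      · have h1 : ∀ ω : Cfg, (F ω - c) * (1 - {ω | Jn (Sx A τ) V' ω}.indicator 1 ω) = 0 := by
          intro ω
          have h2 : ω ∈ {ω | Jn (Sx A τ) V' ω} := ⟨d, hd, d, ⟨e, heV, hed⟩, ReflTransGen.refl⟩
          rw [Set.indicator_of_mem h2]
          simp
        simp only [h1]
        rw [Ex_const hQ0]
      · set A' := A.erase e with hA'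
        have hA'A : A' ⊆ A := Finset.erase_subset _ _
        have hcard : A'.card = n := by rw [hA', Finset.card_erase_of_mem heA, hn]; rfl
        have hVA' : V' ⊆ A' := fun v hv => Finset.mem_erase.2 ⟨fun h => heV (h ▸ hv), hVA hv⟩
        have heA' : e ∉ A' := by rw [hA']; exact Finset.notMem_erase _ _
        have hnot : ∀ v, v ∉ A' → v ∉ A ∨ v = e := by
          intro v hv
          by_cases h : v = e
          · exact Or.inr h
          · exact Or.inl fun h' => hv (Finset.mem_erase.2 ⟨h, h'⟩)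
        have hJ : ∀ S : Finset (ℤ × ℤ),
            Ex Q A' (cf A τ S) (fun ω => (F ω - c) * (1 - {ω | Jn (Sx A τ) V' ω}.indicator 1 ω)) =
            Ex Q A' (cf A τ S) (fun ω => (F ω - c) *
              (1 - {ω | Jn (Sx A' (cf A τ S)) V' ω}.indicator 1 ω)) := by
          intro S
          refine Ex_congr fun T _ => ?_
          congr 2
          refine le_antisymm (ind_le_of_imp ?_) (ind_le_of_imp ?_)
          · rintro ⟨s, ⟨hse, v, hvA, hv, hvs⟩, u, hu, hsu⟩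
            refine ⟨s, ⟨hse, v, fun h => hvA (hA'A h), ?_, hvs⟩, u, hu, hsu⟩
            rw [cf_out hvA]
            exact hv
          · rintro ⟨s, ⟨hse, v, hvA', hvω, hvs⟩, u, hu, hsu⟩
            rcases hnot v hvA' with h | h
            · refine ⟨s, ⟨hse, v, h, ?_, hvs⟩, u, hu, hsu⟩
              rw [cf_out h] at hvω
              exact hvω
            · subst h
              refine ⟨d, hd, u, hu, ReflTransGen.trans ?_ hsu⟩
              refine pc_of_cor (v := v) ?_ hed hvs hd.1 hse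
              rw [cf_out heA']
              exact hvω
        rw [H562.GL.Ex_split hQ0 heA hτ]
        have j1 := ih A' (cf A τ {e}) hcard hVA' (f_good.1 A τ {e} hτ)
          fun B h1 h2 => hB B h1 (h2.trans hA'A)
        have j0 := ih A' (cf A τ ∅) hcard hVA' (f_good.1 A τ ∅ hτ)
          fun B h1 h2 => hB B h1 (h2.trans hA'A)
        rw [← hJ {e}] at j1
        rw [← hJ ∅] at j0
        have hp0 : 0 ≤ Pr Q A τ {ω : Cfg | ω e = true} := Pr_nonneg hQ0 _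
        have hp1 : Pr Q A τ {ω : Cfg | ω e = true} ≤ 1 := Pr_le_one hQ0 _
        rw [← hA']
        have k1 := mul_nonneg hp0 j1
        have k0 := mul_nonneg (sub_nonneg.2 hp1) j0
        linarith
    · push Not at he
      exact term A τ hVA hτ hB he

/-- **Down**: comparison with the free boundary condition from below. -/
theorem dn_bdy (hQ : 1 ≤ Q) (hrρ : r ≤ ρ) (hρR : ρ ≤ R) (hp1 : p ≤ 1)
    (hp : Pr Q (Bq x ρ \ Bq x r) eta1 {ω | ArmPx x r ρ ω} ≤ p) {p' : ℝ}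
    (hp' : Pr Q (Bq x R \ Bq x ρ) eta1 {ω | ArmPx x ρ R ω} ≤ p') (hVA : V ⊆ A)
    (hV : V ⊆ Bq x r) (hF0 : ∀ ω, 0 ≤ F ω) (hFV : Loc V F) (hξ : Good ξ) (hfr : Fr x R A ξ) :
    (1 - p) * (1 - p') * Ex Q A eta0 F ≤ Ex Q A ξ F := by
  have hQ0 : 0 < Q := by linarith
  have hVV : V ⊆ A ∩ Bq x ρ := fun v hv =>
    Finset.mem_inter.2 ⟨hVA hv, H167.Q.bq_mono hrρ (hV hv)⟩
  have hm0 : 0 ≤ Ex Q A eta0 F := Ex_nonneg hQ0 fun S _ => hF0 _
  have h1 : ∀ B, A ∩ Bq x ρ ⊆ B → B ⊆ A → (1 - p) * Ex Q A eta0 F ≤ Ex Q B eta0 F := by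
    intro B hB hBA
    rw [f_markov Q B A eta0 F hQ0 hBA f_good.2.1, ← Ex_mul_left,
      ← Ex_const (Q := Q) (D := A) (η := eta0) hQ0 (Ex Q B eta0 F)]
    refine Ex_mono hQ0 fun S _ => ?_
    exact up_bdy hQ hrρ hp (hVV.trans hB) hV hF0 hFV f_good.2.1 (f_good.1 A eta0 S f_good.2.1)
      (fun v _ hv => absurd hv (by simp [eta0])) (fr_eta0.cf le_rfl hB S)
  have h2 := low_ind hQ hVV hFV (c := (1 - p) * Ex Q A eta0 F) A.card A ξ rfl
    Finset.inter_subset_left hξ h1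
  set c := (1 - p) * Ex Q A eta0 F with hc
  have hc0 : 0 ≤ c := mul_nonneg (by linarith) hm0
  have h3 : Ex Q A ξ (fun ω => (F ω - c) * (1 - {ω | Jn (Sx A ξ) (A ∩ Bq x ρ) ω}.indicator 1 ω)) ≤
      Ex Q A ξ (fun ω => F ω - (c - c * {ω | Jn (Sx A ξ) (A ∩ Bq x ρ) ω}.indicator 1 ω)) := by
    refine Ex_mono hQ0 fun S _ => ?_
    have k1 := ind_nonneg {ω | Jn (Sx A ξ) (A ∩ Bq x ρ) ω} (cf A ξ S)
    have k2 := hF0 (cf A ξ S)
    nlinarith
  rw [Ex_sub, Ex_sub, Ex_const hQ0, Ex_mul_left c] at h3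
  have h4 : Ex Q A ξ ({ω | Jn (Sx A ξ) (A ∩ Bq x ρ) ω}.indicator 1) ≤ p' := by
    have h5 := ex_arm_bdy hQ hp' hξ hfr (F := fun _ => 1) (fun _ => zero_le_one)
      fun _ _ _ => rfl
    rw [Ex_const hQ0, mul_one] at h5
    refine le_trans (Ex_mono hQ0 fun S _ => ?_) h5
    show _ ≤ 1 * _
    rw [one_mul]
    exact ind_le_of_imp fun h => arm_of_jn hρR Finset.inter_subset_right hfr h
  have h5 := mul_le_mul_of_nonneg_left h4 hc0
  have e : (1 - p) * (1 - p') * Ex Q A eta0 F = c - c * p' := by rw [hc]; ring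
  rw [e]
  linarith

/-- Arms of the annulus `(r, L r)`. -/
theorem pr_rat (hQ : 1 ≤ Q) {L : ℤ} (hL : Rat Q L) (hr : 1 ≤ r) (hR : L * r ≤ R) :
    Pr Q (Bq x R \ Bq x r) eta1 {ω | ArmPx x r R ω} ≤ 1 / 2 := by
  have hQ0 : 0 < Q := by linarith
  have h := (hL.2 x r R (Bq x R \ Bq x r) eta1 (fun _ => 1) hr hR f_good.2.2 subset_rfl
    (fun _ => zero_le_one) fun _ _ _ => rfl).1
  simp only [one_mul] at h
  rw [Ex_const hQ0, mul_one] at h
  exact h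

theorem scale_le {L : ℤ} (hL : Rat Q L) (hr : 1 ≤ r) (hR : L * (L * r) ≤ R) :
    r ≤ L * r ∧ L * r ≤ R := by
  have hL2 := hL.1
  have h1 : r ≤ L * r := by nlinarith
  exact ⟨h1, by nlinarith⟩

section Main

variable {L : ℤ} {D D' : Finset (ℤ × ℤ)} {η η' : Cfg}

theorem le_free (hQ : 1 ≤ Q) (hL : Rat Q L) (hr : 1 ≤ r) (hR : L * r ≤ R) (hVA : V ⊆ A)
    (hV : V ⊆ Bq x r) (hF0 : ∀ ω, 0 ≤ F ω) (hFV : Loc V F) (hξ : Good ξ) (hfr : Fr x R A ξ) :
    Ex Q A ξ F ≤ 2 * Ex Q A eta0 F := by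
  have hrR : r ≤ R := by have := hL.1; nlinarith
  have h := up_bdy hQ hrR (pr_rat hQ hL hr hR) hVA hV hF0 hFV f_good.2.1 hξ
    (fun v _ hv => absurd hv (by simp [eta0])) hfr
  linarith

theorem free_le (hQ : 1 ≤ Q) (hL : Rat Q L) (hr : 1 ≤ r) (hR : L * (L * r) ≤ R) (hVA : V ⊆ A)
    (hV : V ⊆ Bq x r) (hF0 : ∀ ω, 0 ≤ F ω) (hFV : Loc V F) (hξ : Good ξ) (hfr : Fr x R A ξ) :
    Ex Q A eta0 F ≤ 4 * Ex Q A ξ F := by
  have hL2 := hL.1
  have h1 : r ≤ L * r := by nlinarith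
  have h2 : L * r ≤ R := by nlinarith
  have h := dn_bdy hQ h1 h2 (by norm_num) (pr_rat hQ hL hr le_rfl)
    (pr_rat hQ hL (by nlinarith) hR) hVA hV hF0 hFV hξ hfr
  linarith

/-- **Ratio mixing at a free boundary**: two boundary conditions. -/
theorem rat_bdy (hQ : 1 ≤ Q) (hL : Rat Q L) (hr : 1 ≤ r) (hR : L * (L * r) ≤ R) (hVA : V ⊆ A)
    (hV : V ⊆ Bq x r) (hF0 : ∀ ω, 0 ≤ F ω) (hFV : Loc V F) (hξ : Good ξ) (hξ' : Good ξ')
    (hfr : Fr x R A ξ) (hfr' : Fr x R A ξ') : Ex Q A ξ F ≤ 8 * Ex Q A ξ' F := by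
  have h1 := le_free hQ hL hr (scale_le hL hr hR).2 hVA hV hF0 hFV hξ hfr
  have h2 := free_le hQ hL hr hR hVA hV hF0 hFV hξ' hfr'
  linarith

/-- The free measure of the part of the domain in the box. -/
theorem dom_le (hQ : 1 ≤ Q) (hL : Rat Q L) (hr : 1 ≤ r) (hR : L * (L * r) ≤ R) (hVD : V ⊆ D)
    (hV : V ⊆ Bq x r) (hF0 : ∀ ω, 0 ≤ F ω) (hFV : Loc V F) (hη : Good η) (hfr : Fr x R D η) :
    Ex Q D η F ≤ 2 * Ex Q (D ∩ Bq x R) eta0 F ∧ Ex Q (D ∩ Bq x R) eta0 F ≤ 4 * Ex Q D η F := by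
  have hQ0 : 0 < Q := by linarith
  have hrR : r ≤ R := (scale_le hL hr hR).1.trans (scale_le hL hr hR).2
  have hVA : V ⊆ D ∩ Bq x R := fun v hv =>
    Finset.mem_inter.2 ⟨hVD hv, H167.Q.bq_mono hrR (hV hv)⟩
  constructor
  · rw [f_markov Q (D ∩ Bq x R) D η F hQ0 Finset.inter_subset_left hη,
      ← Ex_const (Q := Q) (D := D) (η := η) hQ0 (2 * Ex Q (D ∩ Bq x R) eta0 F)]
    exact Ex_mono hQ0 fun S _ => le_free hQ hL hr (scale_le hL hr hR).2 hVA hV hF0 hFV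
      (f_good.1 D η S hη) (hfr.cf le_rfl subset_rfl S)
  · rw [f_markov Q (D ∩ Bq x R) D η F hQ0 Finset.inter_subset_left hη, ← Ex_mul_left,
      ← Ex_const (Q := Q) (D := D) (η := η) hQ0 (Ex Q (D ∩ Bq x R) eta0 F)]
    exact Ex_mono hQ0 fun S _ => free_le hQ hL hr hR hVA hV hF0 hFV
      (f_good.1 D η S hη) (hfr.cf le_rfl subset_rfl S)

/-- **Ratio mixing at a free boundary**: two domains with the same trace on the box `(x, R)`. -/
theorem rat_bdy_dom (hQ : 1 ≤ Q) (hL : Rat Q L) (hr : 1 ≤ r) (hR : L * (L * r) ≤ R)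
    (hDD : D ∩ Bq x R = D' ∩ Bq x R) (hVD : V ⊆ D)
    (hV : V ⊆ Bq x r) (hF0 : ∀ ω, 0 ≤ F ω) (hFV : Loc V F) (hη : Good η) (hη' : Good η')
    (hfr : Fr x R D η) (hfr' : Fr x R D' η') : Ex Q D η F ≤ 8 * Ex Q D' η' F := by
  have hrR : r ≤ R := (scale_le hL hr hR).1.trans (scale_le hL hr hR).2
  have hVD' : V ⊆ D' := fun v hv => by
    have h : v ∈ D ∩ Bq x R := Finset.mem_inter.2 ⟨hVD hv, H167.Q.bq_mono hrR (hV hv)⟩
    rw [hDD] at h
    exact (Finset.mem_inter.1 h).1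
  have h1 := (dom_le hQ hL hr hR hVD hV hF0 hFV hη hfr).1
  have h2 := (dom_le hQ hL hr hR hVD' hV hF0 hFV hη' hfr').2
  rw [hDD] at h1
  linarith

/-- **Quasi-independence at a free boundary**: a nonnegative function off the box times a nonnegative
local function. -/
theorem rat_bdy_mul (hQ : 1 ≤ Q) (hL : Rat Q L) (hr : 1 ≤ r) (hR : L * (L * r) ≤ R)
    (hDD : D ∩ Bq x R = D' ∩ Bq x R) (hVD : V ⊆ D)
    (hV : V ⊆ Bq x r) (hF0 : ∀ ω, 0 ≤ F ω) (hFV : Loc V F) (hη : Good η) (hη' : Good η')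
    (hfr : Fr x R D η) (hfr' : Fr x R D' η') (hG0 : ∀ ω, 0 ≤ G ω) (hG : Ind (D ∩ Bq x R) G) :
    Ex Q D η (fun ω => G ω * F ω) ≤ 8 * (Ex Q D η G * Ex Q D' η' F) ∧
      Ex Q D η G * Ex Q D' η' F ≤ 8 * Ex Q D η (fun ω => G ω * F ω) := by
  have hQ0 : 0 < Q := by linarith
  have hrR : r ≤ R := (scale_le hL hr hR).1.trans (scale_le hL hr hR).2
  have hVA : V ⊆ D ∩ Bq x R := fun v hv =>
    Finset.mem_inter.2 ⟨hVD hv, H167.Q.bq_mono hrR (hV hv)⟩
  have hii : D ∩ Bq x R ∩ Bq x R = D' ∩ Bq x R := by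
    rw [Finset.inter_assoc, Finset.inter_self, hDD]
  have hVD' : V ⊆ D' := fun v hv => by
    have h := hVA hv
    rw [hDD] at h
    exact (Finset.mem_inter.1 h).1
  have h1 : ∀ S, Ex Q (D ∩ Bq x R) (cf D η S) F ≤ 8 * Ex Q D' η' F := fun S =>
    rat_bdy_dom hQ hL hr hR hii hVA hV hF0 hFV (f_good.1 D η S hη) hη'
      (hfr.cf le_rfl subset_rfl S) hfr'
  have h2 : ∀ S, Ex Q D' η' F ≤ 8 * Ex Q (D ∩ Bq x R) (cf D η S) F := fun S =>
    rat_bdy_dom hQ hL hr hR hii.symm hVD' hV hF0 hFV hη' (f_good.1 D η S hη) hfr'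
      (hfr.cf le_rfl subset_rfl S)
  rw [markov f_markov hQ0 (A := D ∩ Bq x R) Finset.inter_subset_left hη hG]
  constructor
  · have e : 8 * (Ex Q D η G * Ex Q D' η' F) = Ex Q D η (fun ω => 8 * Ex Q D' η' F * G ω) := by
      rw [Ex_mul_left]; ring
    rw [e]
    refine Ex_mono hQ0 fun S _ => ?_
    rw [mul_comm]
    exact mul_le_mul_of_nonneg_right (h1 S) (hG0 _)
  · have e : Ex Q D η G * Ex Q D' η' F = Ex Q D η (fun ω => Ex Q D' η' F * G ω) := by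
      rw [Ex_mul_left]; ring
    rw [e, ← Ex_mul_left]
    refine Ex_mono hQ0 fun S _ => ?_
    calc Ex Q D' η' F * G (cf D η S) ≤ 8 * Ex Q (D ∩ Bq x R) (cf D η S) F * G (cf D η S) :=
          mul_le_mul_of_nonneg_right (h2 S) (hG0 _)
      _ = _ := by ring

/-! ### Wired boundaries -/

/-- The configuration is open on the part of the box `(x, R)` outside of `A`. -/
def Wr (x : ℤ × ℤ) (R : ℤ) (A : Finset (ℤ × ℤ)) (ξ : Cfg) : Prop :=
  ∀ v ∈ Bq x R, v ∉ A → ξ v = true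

/-- The shift of squares by `(1, 0)`. -/
def sq1 (v : ℤ × ℤ) : ℤ × ℤ := (v.1 + 1, v.2)

theorem sq1_inj : Function.Injective sq1 := by
  intro u v h
  simp only [sq1, Prod.mk.injEq] at h
  exact Prod.ext (by omega) h.2

theorem mem_im {A : Finset (ℤ × ℤ)} {v : ℤ × ℤ} : v ∈ A.image sq1 ↔ (v.1 - 1, v.2) ∈ A := by
  constructor
  · intro h
    obtain ⟨w, hw, rfl⟩ := Finset.mem_image.1 h
    simpa [sq1] using hw
  · intro h
    exact Finset.mem_image.2 ⟨_, h, by simp [sq1]⟩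

theorem im_Bq : (Bq x R).image sq1 = Bq (sq1 x) R := by
  ext v
  rw [mem_im, H167.Q.mem_Bq, H167.Q.mem_Bq]
  simp only [sq1]
  omega

theorem Wr.du (h : Wr x R A ξ) : Fr (sq1 x) R (A.image sq1) (du ξ) := by
  intro v hv hvA
  rw [← im_Bq, mem_im] at hv
  rw [mem_im] at hvA
  show (!(ξ (v.1 - 1, v.2))) = false
  rw [h _ hv hvA]
  rfl

theorem loc_du (hF : Loc V F) : Loc (V.image sq1) (fun ω => F (H519.dui ω)) := by
  intro ω ω' h
  refine hF _ _ fun v hv => ?_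
  show (!(ω (v.1 + 1, v.2))) = !(ω' (v.1 + 1, v.2))
  rw [h (v.1 + 1, v.2) (Finset.mem_image.2 ⟨v, hv, rfl⟩)]

theorem ind_du (hG : Ind A G) : Ind (A.image sq1) (fun ω => G (H519.dui ω)) := by
  intro ω ω' h
  refine hG _ _ fun v hv => ?_
  show (!(ω (v.1 + 1, v.2))) = !(ω' (v.1 + 1, v.2))
  rw [h (v.1 + 1, v.2) fun h' => hv (by rw [mem_im] at h'; simpa using h')]

theorem ex_du (hQ : 1 ≤ Q) (hη : Good η) (F : Cfg → ℝ) :
    Ex Q D η F = Ex Q (D.image sq1) (du η) (fun ω => F (H519.dui ω)) :=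
  H519.Ex_du (by linarith) D hη F

theorem trace_du (hDD : D ∩ Bq x R = D' ∩ Bq x R) :
    D.image sq1 ∩ Bq (sq1 x) R = D'.image sq1 ∩ Bq (sq1 x) R := by
  rw [← im_Bq, ← Finset.image_inter _ _ sq1_inj, ← Finset.image_inter _ _ sq1_inj, hDD]

/-- **Ratio mixing at a wired boundary**: two domains with the same trace on the box `(x, R)`. -/
theorem rat_bdy_dom_w (hQ : 1 ≤ Q) (hL : Rat Q L) (hr : 1 ≤ r) (hR : L * (L * r) ≤ R)
    (hDD : D ∩ Bq x R = D' ∩ Bq x R) (hVD : V ⊆ D)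
    (hV : V ⊆ Bq x r) (hF0 : ∀ ω, 0 ≤ F ω) (hFV : Loc V F) (hη : Good η) (hη' : Good η')
    (hfr : Wr x R D η) (hfr' : Wr x R D' η') : Ex Q D η F ≤ 8 * Ex Q D' η' F := by
  rw [ex_du hQ hη F, ex_du hQ hη' F]
  exact rat_bdy_dom hQ hL hr hR (trace_du hDD) (Finset.image_subset_image hVD)
    (by rw [← im_Bq]; exact Finset.image_subset_image hV) (fun _ => hF0 _) (loc_du hFV)
    (f_dual.1 _ hη) (f_dual.1 _ hη') hfr.du hfr'.du

/-- **Quasi-independence at a wired boundary**. -/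
theorem rat_bdy_mul_w (hQ : 1 ≤ Q) (hL : Rat Q L) (hr : 1 ≤ r) (hR : L * (L * r) ≤ R)
    (hDD : D ∩ Bq x R = D' ∩ Bq x R) (hVD : V ⊆ D)
    (hV : V ⊆ Bq x r) (hF0 : ∀ ω, 0 ≤ F ω) (hFV : Loc V F) (hη : Good η) (hη' : Good η')
    (hfr : Wr x R D η) (hfr' : Wr x R D' η') (hG0 : ∀ ω, 0 ≤ G ω) (hG : Ind (D ∩ Bq x R) G) :
    Ex Q D η (fun ω => G ω * F ω) ≤ 8 * (Ex Q D η G * Ex Q D' η' F) ∧
      Ex Q D η G * Ex Q D' η' F ≤ 8 * Ex Q D η (fun ω => G ω * F ω) := by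
  rw [ex_du hQ hη (fun ω => G ω * F ω), ex_du hQ hη' F, ex_du hQ hη G]
  exact rat_bdy_mul hQ hL hr hR (trace_du hDD) (Finset.image_subset_image hVD)
    (by rw [← im_Bq]; exact Finset.image_subset_image hV) (fun _ => hF0 _) (loc_du hFV)
    (f_dual.1 _ hη) (f_dual.1 _ hη') hfr.du hfr'.du (fun _ => hG0 _)
    (by rw [← im_Bq, ← Finset.image_inter _ _ sq1_inj]; exact ind_du hG)

end Main

/-! ### The rate -/

/-- The intermediate scale. -/
theorem exists_mid (hr : 1 ≤ r) (hrR : r ≤ R) {α : ℝ} (hα : 0 < α) : ∃ ρ : ℤ, r ≤ ρ ∧ ρ ≤ R ∧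
    ((r : ℝ) / ρ) ^ α ≤ ((r : ℝ) / R) ^ (α / 2) ∧
    ((ρ : ℝ) / R) ^ α ≤ 2 ^ α * ((r : ℝ) / R) ^ (α / 2) := by
  have hr' : (1 : ℝ) ≤ r := by exact_mod_cast hr
  have hrR' : (r : ℝ) ≤ R := by exact_mod_cast hrR
  have hR0 : (0 : ℝ) < R := by linarith
  have hr0 : (0 : ℝ) < r := by linarith
  set s := Real.sqrt (r * R) with hs
  have hs2 : s * s = r * R := Real.mul_self_sqrt (by positivity)
  have hs0 : 0 < s := Real.sqrt_pos.2 (by positivity)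
  have h1 : (r : ℝ) ≤ s := Real.le_sqrt_of_sq_le (by nlinarith)
  have h2 : s ≤ R := by
    rw [hs, Real.sqrt_le_left (by linarith)]
    nlinarith
  have hq : Real.sqrt ((r : ℝ) / R) = r / s := by
    rw [Real.sqrt_eq_iff_mul_self_eq (by positivity) (by positivity)]
    field_simp
    nlinarith
  have hp : ∀ t : ℝ, 0 ≤ t → t ^ (α / 2) = (Real.sqrt t) ^ α := by
    intro t ht
    rw [Real.sqrt_eq_rpow, ← Real.rpow_mul ht]
    congr 1
    ring
  refine ⟨⌈s⌉, ?_, ?_, ?_, ?_⟩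
  · have := h1.trans (Int.le_ceil s)
    exact_mod_cast this
  · exact Int.ceil_le.2 h2
  · rw [hp _ (by positivity), hq]
    have h3 : s ≤ (⌈s⌉ : ℝ) := Int.le_ceil s
    have h4 : (0 : ℝ) < ⌈s⌉ := hs0.trans_le h3
    exact Real.rpow_le_rpow (by positivity) (div_le_div_of_nonneg_left hr0.le hs0 h3) hα.le
  · rw [hp _ (by positivity), hq, ← Real.mul_rpow (by norm_num) (by positivity)]
    have h3 : (⌈s⌉ : ℝ) < s + 1 := Int.ceil_lt_add_one s
    have h4 : s ≤ (⌈s⌉ : ℝ) := Int.le_ceil s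
    refine Real.rpow_le_rpow (div_nonneg (hs0.le.trans h4) hR0.le) ?_ hα.le
    rw [div_le_iff₀ hR0]
    have h5 : 2 * ((r : ℝ) / s) * R = 2 * s := by
      field_simp
      nlinarith
    rw [h5]
    linarith

/-- Arms, with the rate. -/
theorem pr_dec (hQ : 1 ≤ Q) {α C : ℝ} (h : ArmDec Q α C) (hr : 1 ≤ r) (hrR : r ≤ R) :
    Pr Q (Bq x R \ Bq x r) eta1 {ω | ArmPx x r R ω} ≤ C * ((r : ℝ) / R) ^ α := by
  have hQ0 : 0 < Q := by linarith
  have h1 := h x r R (Bq x R \ Bq x r) eta1 (fun _ => 1) hr hrR f_good.2.2 subset_rfl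
    (fun _ => zero_le_one) fun _ _ _ => rfl
  simp only [one_mul] at h1
  rw [Ex_const hQ0, mul_one] at h1
  exact h1

/-- **Ratio mixing at a free boundary, with a rate.** -/
theorem mix_bdy (hQ : 1 ≤ Q) {α C : ℝ} (hα : 0 < α) (hC : 0 < C) (h : ArmDec Q α C) {L : ℤ}
    (hL : Rat Q L) (hr : 1 ≤ r) (hrR : L * r ≤ R) (hVA : V ⊆ A) (hV : V ⊆ Bq x r)
    (hF0 : ∀ ω, 0 ≤ F ω) (hFV : Loc V F) (hξ : Good ξ) (hfr : Fr x R A ξ) :
    |Ex Q A ξ F - Ex Q A eta0 F| ≤ (2 + 2 ^ α) * C * ((r : ℝ) / R) ^ (α / 2) * Ex Q A eta0 F := by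
  have hQ0 : 0 < Q := by linarith
  have hrR1 : r ≤ R := by have := hL.1; nlinarith
  have hr' : (1 : ℝ) ≤ r := by exact_mod_cast hr
  have hrR' : (r : ℝ) ≤ R := by exact_mod_cast hrR1
  have hR0 : (0 : ℝ) < R := by linarith
  have hm0 : 0 ≤ Ex Q A eta0 F := Ex_nonneg hQ0 fun S _ => hF0 _
  have hx0 : 0 ≤ Ex Q A ξ F := Ex_nonneg hQ0 fun S _ => hF0 _
  have h2 : (0 : ℝ) < 2 ^ α := by positivity
  have ht1 : (r : ℝ) / R ≤ 1 := (div_le_one hR0).2 hrR'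
  have ht0 : 0 < (r : ℝ) / R := by positivity
  have htt : ((r : ℝ) / R) ^ α ≤ ((r : ℝ) / R) ^ (α / 2) :=
    Real.rpow_le_rpow_of_exponent_ge ht0 ht1 (by linarith)
  set t := ((r : ℝ) / R) ^ (α / 2) with ht
  have htp : 0 ≤ t := by positivity
  rw [abs_le]
  constructor
  · -- from below
    obtain ⟨ρ, h3, h4, h5, h6⟩ := exists_mid hr hrR1 hα
    have e1 : C * ((r : ℝ) / ρ) ^ α ≤ C * t := mul_le_mul_of_nonneg_left h5 hC.le
    have e2 : C * ((ρ : ℝ) / R) ^ α ≤ C * (2 ^ α * t) := mul_le_mul_of_nonneg_left h6 hC.le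
    by_cases hCt : C * t ≤ 1
    · have h7 := dn_bdy hQ h3 h4 hCt ((pr_dec hQ h hr h3).trans e1)
        ((pr_dec hQ h (by omega) h4).trans e2) hVA hV hF0 hFV hξ hfr
      have e3 : (1 - (C * t + C * (2 ^ α * t))) * Ex Q A eta0 F ≤
          (1 - C * t) * (1 - C * (2 ^ α * t)) * Ex Q A eta0 F := by
        refine mul_le_mul_of_nonneg_right ?_ hm0
        have : 0 ≤ (C * t) * (C * (2 ^ α * t)) := by positivity
        nlinarith
      have e4 : 0 ≤ C * t * Ex Q A eta0 F := by positivity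
      nlinarith
    · push Not at hCt
      have e4 : 1 * Ex Q A eta0 F ≤ (C * t) * Ex Q A eta0 F :=
        mul_le_mul_of_nonneg_right hCt.le hm0
      have e5 : 0 ≤ (1 + 2 ^ α) * (C * t * Ex Q A eta0 F) := by positivity
      nlinarith
  · -- from above
    have h7 := up_bdy hQ hrR1 (pr_dec hQ h hr hrR1) hVA hV hF0 hFV f_good.2.1 hξ
      (fun v _ hv => absurd hv (by simp [eta0])) hfr
    have h8 := le_free hQ hL hr hrR hVA hV hF0 hFV hξ hfr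
    have e1 : C * ((r : ℝ) / R) ^ α * Ex Q A ξ F ≤ C * t * (2 * Ex Q A eta0 F) :=
      mul_le_mul (mul_le_mul_of_nonneg_left htt hC.le) h8 hx0 (by positivity)
    have e2 : 0 ≤ 2 ^ α * (C * t * Ex Q A eta0 F) := by positivity
    nlinarith

end Vale.Agent.P167.H192.Q
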