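import Vale.Agent.P167.H192.TA.Main
import Vale.Agent.P167.H192.Q.RatB

/-!
# P167, general `q`: the strong Russo-Seymour-Welsh property at a flat side
-/

namespace Vale.Agent.P167.H192.Q

open Vale.Agent.P167 Vale.Agent.P167.FK Vale.Agent.P167.FKA Vale.Agent.P167.H192.TA

/-- The configuration of the colour `c`. -/
def etac (c : Bool) : Cfg := fun _ => c

theorem etac_true : etac true = eta1 := rfl

theorem etac_false : etac false = eta0 := rfl

theorem good_etac (c : Bool) : Good (etac c) := by
  cases c
  · exact f_good.2.1
  · exact f_good.2.2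

/-- Probability that the colour `c` crosses the half annulus, everything outside of the colour `c`. -/
noncomputable def pX (Q : ℝ) (c : Bool) (b : ℤ × ℤ) (r R : ℤ) : ℝ :=
  Pr Q (dF b r R) (etac c) (Xc c b r R)

/-- **Strong Russo-Seymour-Welsh property**: with free boundary conditions everywhere, the dual paths
do not cross the half annulus with positive probability (then a primal path joins the two rays). -/
def SRSW (Q : ℝ) : Prop := ∃ (Λ : ℤ) (c : ℝ), 2 ≤ Λ ∧ 0 < c ∧ ∀ (b : ℤ × ℤ) (r : ℤ), 1 ≤ r →
  pX Q false b r (Λ * r) ≤ 1 - c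

end Vale.Agent.P167.H192.Q
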