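import Vale.Agent.P167.H365.NDefs
import Vale.Agent.P167.H192.Q.SDefs

/-!
# P167, general `q`: crossings of half annuli by the interface at a flat side (statements)
-/

namespace Vale.Agent.P167.H192.Q

open Vale.Agent.P167 Vale.Agent.P167.FK Vale.Agent.P167.FKA Vale.Agent.P167.H365

/-- In the annulus `(b; r, R)` the domain `D` is the half-plane and everything below the side has the
state `e` (`false`: free side, `true`: wired side). Nothing is assumed inside of the box `r` and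
outside of the box `R`. -/
def FlatA (e : Bool) (D : Finset (ℤ × ℤ)) (η : Cfg) (b : ℤ × ℤ) (r R : ℤ) : Prop :=
  ∀ v, r ≤ nm (v - b) → nm (v - b) ≤ R → (v ∈ D ↔ b.2 ≤ v.2) ∧ (v.2 < b.2 → η v = e)

/-- Two arms: the half annulus is crossed by the interface. `G` is any nonnegative function which
does not depend on the squares of the half annulus. -/
def I2Q (Q : ℝ) : Prop := ∃ C : ℝ, 0 < C ∧ ∀ (e : Bool) (D : Finset (ℤ × ℤ)) (η : Cfg) (b : ℤ × ℤ)
  (r R : ℤ) (G : Cfg → ℝ), Good η → FlatA e D η b r R → 1 ≤ r → r ≤ R → (∀ ω, 0 ≤ G ω) →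
  Ind (hA b r R) G →
  Ex Q D η (fun ω => G ω * {ω | TwoS b r R ω}.indicator 1 ω) ≤ C * ((r : ℝ) / R) * Ex Q D η G

/-- Three arms: the half annulus is crossed twice by the interface. -/
def I3Q (Q : ℝ) : Prop := ∃ C α : ℝ, 0 < C ∧ 0 < α ∧ ∀ (e : Bool) (D : Finset (ℤ × ℤ)) (η : Cfg)
  (b : ℤ × ℤ) (r R : ℤ) (G : Cfg → ℝ), Good η → FlatA e D η b r R → 1 ≤ r → r ≤ R →
  (∀ ω, 0 ≤ G ω) → Ind (hA b r R) G →
  Ex Q D η (fun ω => G ω * {ω | ThrS b r R ω}.indicator 1 ω) ≤
    C * ((r : ℝ) / R) ^ (1 + α) * Ex Q D η G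

end Vale.Agent.P167.H192.Q
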