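import Vale.Agent.P167.H192.Q.RatC
import Vale.Agent.P167.H192.Q.Fresh
import Vale.Agent.P167.H192.Q.IDefs
import Vale.Agent.P167.H192.TA.Thr
import Vale.Agent.P167.FKA.Wir

/-!
# P167, general `q`, block Q-I23: the two-arm bound at a flat side
-/

namespace Vale.Agent.P167.H192.Q

open Finset Relation Vale.Agent.P167 Vale.Agent.P167.FK Vale.Agent.P167.FKA Vale.Agent.P167.H192.TA
  Vale.Agent.P167.H632 Vale.Agent.P167.H558 Vale.Agent.P167.H871 Vale.Agent.P167.H365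
open Vale.Agent.P145.FB (PStep PConn)
open Vale.Agent.P167.H259 (f_markov f_fkg f_comp f_comp2 Ex_out cf_cf PC_mono)
open Vale.Agent.P167.H519 (Rat)

variable {Q : ℝ} {D A : Finset (ℤ × ℤ)} {η η' : Cfg} {F G : Cfg → ℝ} {c : Bool} {b : ℤ × ℤ}
  {r R m1 m2 : ℤ}

/-! ### Crossing probabilities of half annuli -/

theorem Xc_restrict {r' R' : ℤ} (h1 : r ≤ r') (h2 : r' ≤ R') (h3 : R' ≤ R) :
    Xc c b r R ⊆ Xc c b r' R' := by
  rintro ω ⟨y, y', g1, g2, g3, g4, g5⟩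
  have hy : b.2 ≤ y.2 := by
    simp only [sr, Set.mem_ofPred_eq] at g1
    omega
  obtain ⟨y0, y1, k1, k2, k3, k4, k5⟩ := cut_dq (G := cs c ω ∩ TA.dq b r R) h2 hy
    (fun v hv => by have := hv.2; simp only [TA.dq, Set.mem_ofPred_eq] at this; omega) g4 (g3.trans h1)
    (h3.trans g5)
  exact ⟨y0, y1, k2, by rw [← k1.parity, g2], k3,
    k4.mono (Set.inter_subset_inter_left _ Set.inter_subset_left), k5⟩

theorem HX_restrict {r' R' : ℤ} (h1 : r ≤ r') (h2 : r' ≤ R') (h3 : R' ≤ R) {ω : Cfg}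
    (h : ω ∈ HX c b r R) : ω ∈ HX c b r' R' := by
  obtain ⟨y, y', g1, g2, g3, g4, g5⟩ := Xc_of_HX h
  exact hx_of_path h2 g1 g2 g4 (g3.trans h1) (h3.trans g5)

theorem Xc_congr {ω ω' : Cfg} (h : ∀ v ∈ dF b r R, ω v = ω' v) (h1 : ω ∈ Xc c b r R) :
    ω' ∈ Xc c b r R := by
  obtain ⟨y, y', g1, g2, g3, g4, g5⟩ := h1
  exact ⟨y, y', g1, g2, g3, pw_congr h g4, g5⟩

theorem loc_Xc : Loc (dF b r R) ((Xc c b r R).indicator (1 : Cfg → ℝ)) := by
  intro ω ω' h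
  by_cases h1 : ω ∈ Xc c b r R
  · rw [Set.indicator_of_mem h1, Set.indicator_of_mem (Xc_congr h h1)]
    rfl
  · rw [Set.indicator_of_notMem h1,
      Set.indicator_of_notMem fun h2 => h1 (Xc_congr (fun v hv => (h v hv).symm) h2)]

theorem mon_Xc : MonC c ((Xc c b r R).indicator (1 : Cfg → ℝ)) := by
  intro ω ω' h
  refine ind_imp ?_
  rintro ⟨y, y', h1, h2, h3, h4, h5⟩
  refine ⟨y, y', h1, h2, h3, h4.mono ?_, h5⟩
  rintro v ⟨hv1, hv2⟩
  exact ⟨h v hv1, hv2⟩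

theorem pX_nonneg (hQ : 1 ≤ Q) : 0 ≤ pX Q c b r R := Pr_nonneg (by linarith) _

/-- Crossings in any domain, with a factor which does not depend on the half annulus. -/
theorem ex_Xc_le (hQ : 1 ≤ Q) (hr : 1 ≤ r) (hD : dF b r R ⊆ D) (hη : Good η)
    (hG0 : ∀ ω, 0 ≤ G ω) (hG : Ind (dF b r R) G) :
    Ex Q D η (fun ω => G ω * (Xc c b r R).indicator 1 ω) ≤ pX Q c b r R * Ex Q D η G := by
  have hQ0 : 0 < Q := by linarith
  rw [markov f_markov hQ0 (A := dF b r R) hD hη hG, ← Ex_mul_left]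
  refine Ex_mono hQ0 fun S _ => ?_
  rw [mul_comm (pX Q c b r R)]
  refine mul_le_mul_of_nonneg_left ?_ (hG0 _)
  exact comp_skin hQ hr subset_rfl (f_good.1 D η S hη) (fun v hv hv' => absurd hv hv') mon_Xc loc_Xc

theorem Xc_le (hQ : 1 ≤ Q) (hr : 1 ≤ r) (hD : dF b r R ⊆ D) (hη : Good η) :
    Pr Q D η (Xc c b r R) ≤ pX Q c b r R := by
  have h := ex_Xc_le (c := c) hQ hr hD hη (G := fun _ => 1) (fun _ => zero_le_one)
    fun _ _ _ => rfl
  simp only [one_mul] at h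
  rwa [Ex_const (by linarith), mul_one] at h

theorem pX_anti (hQ : 1 ≤ Q) {R' : ℤ} (hr : 1 ≤ r) (h2 : r ≤ R') (h3 : R' ≤ R) :
    pX Q c b r R ≤ pX Q c b r R' :=
  (Pr_mono (by linarith) (Xc_restrict le_rfl h2 h3)).trans
    (Xc_le hQ hr (dF_mono le_rfl h3) (good_etac c))

theorem pX_mul (hQ : 1 ≤ Q) {m : ℤ} (hr : 1 ≤ r) (h1 : r ≤ m) (h2 : m ≤ R) :
    pX Q c b r R ≤ pX Q c b r m * pX Q c b m R := by
  have hQ0 : 0 < Q := by linarith
  have k1 : pX Q c b r R ≤ Ex Q (dF b r R) (etac c) (fun ω => (Xc c b m R).indicator 1 ω *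
      (Xc c b r m).indicator 1 ω) := by
    refine Ex_mono hQ0 fun S _ => ?_
    rw [← ind_inter]
    exact H519.ind_le_of_imp fun h => ⟨Xc_restrict h1 h2 le_rfl h, Xc_restrict le_rfl h1 h2 h⟩
  have k2 := ex_Xc_le (c := c) (b := b) (r := r) (R := m) hQ hr (dF_mono le_rfl h2) (good_etac c)
    (D := dF b r R) (G := (Xc c b m R).indicator 1) (fun _ => ind_nonneg _ _)
    ((loc_Xc (c := c) (b := b) (r := m) (R := R)).ind (by
      rw [Finset.disjoint_left]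
      intro v hv hv'
      have a1 := mem_dF.1 hv
      have a2 := mem_dF.1 hv'
      simp only [TA.dq, Set.mem_ofPred_eq] at a1 a2
      omega))
  exact (k1.trans k2).trans (mul_le_mul_of_nonneg_left
    (Xc_le hQ (by omega) (dF_mono h1 le_rfl) (good_etac c)) (pX_nonneg hQ))

/-! ### Duality -/

theorem im_dF : (dF b r R).image sq1 = dF (sq1 b) r R := by
  ext v
  rw [mem_im, mem_dF, mem_dF]
  simp only [TA.dq, sq1, Set.mem_ofPred_eq]
  omega

theorem pX_dual (hQ : 1 ≤ Q) : pX Q true b r R ≤ pX Q false (sq1 b) r R := by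
  have hQ0 : 0 < Q := by linarith
  have e1 : du (etac true) = etac false := by
    funext v
    rfl
  unfold pX Pr
  rw [ex_du hQ (good_etac true), im_dF, e1]
  refine Ex_mono hQ0 fun S _ => ?_
  generalize cf (dF (sq1 b) r R) (etac false) S = ω
  by_cases h : H519.dui ω ∈ Xc true b r R
  · have h' : ω ∈ Xc false (sq1 b) r R := by
      obtain ⟨y, y', g1, g2, g3, g4, g5⟩ := h
      have key : ∀ u v, Pw (cs true (H519.dui ω) ∩ TA.dq b r R) u v →
          Pw (cs false ω ∩ TA.dq (sq1 b) r R) (u.1 + 1, u.2) (v.1 + 1, v.2) := by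
        intro u v h
        induction h with
        | refl => exact ReflTransGen.refl
        | @tail x y _ hxy ih =>
          obtain ⟨h1, h2, h3, h4⟩ := hxy
          refine ih.tail ⟨by dsimp only; omega, h2, ?_⟩
          have e : min (x.1 + 1) (y.1 + 1) = min x.1 y.1 + 1 := by omega
          dsimp only
          rw [e]
          refine ⟨?_, ?_⟩
          · have h5 : (!(ω (min x.1 y.1 + 1, min x.2 y.2))) = true := h3
            show ω (min x.1 y.1 + 1, min x.2 y.2) = false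
            simpa using h5
          · simp only [TA.dq, sq1, Set.mem_ofPred_eq] at h4 ⊢
            omega
      refine ⟨(y.1 + 1, y.2), (y'.1 + 1, y'.2), ?_, ?_, ?_, key _ _ g4, ?_⟩
      · simp only [sr, sq1, Set.mem_ofPred_eq] at g1 ⊢
        omega
      · simp only [pr, if_true, Bool.false_eq_true, if_false] at g2 ⊢
        omega
      · have e : ((y.1 + 1, y.2) : ℤ × ℤ) - sq1 b = y - b := by
          refine Prod.ext ?_ ?_ <;> simp [sq1]
        rw [e]; exact g3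
      · have e : ((y'.1 + 1, y'.2) : ℤ × ℤ) - sq1 b = y' - b := by
          refine Prod.ext ?_ ?_ <;> simp [sq1]
        rw [e]; exact g5
    rw [Set.indicator_of_mem h, Set.indicator_of_mem h']
    exact le_refl (1 : ℝ)
  · rw [Set.indicator_of_notMem h]
    exact ind_nonneg _ _

theorem pX_all (hQ : 1 ≤ Q) {Λ : ℤ} {c0 : ℝ} (h : ∀ (b : ℤ × ℤ) (r : ℤ), 1 ≤ r →
    pX Q false b r (Λ * r) ≤ 1 - c0) (c : Bool) (b : ℤ × ℤ) {r : ℤ} (hr : 1 ≤ r) :
    pX Q c b r (Λ * r) ≤ 1 - c0 := by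
  cases c
  · exact h b r hr
  · exact (pX_dual hQ).trans (h _ r hr)

/-- **The rate.** -/
theorem pX_dec (hQ : 1 ≤ Q) (hS : SRSW Q) : ∃ α C : ℝ, 0 < α ∧ 0 < C ∧
    ∀ (c : Bool) (b : ℤ × ℤ) (r R : ℤ), 1 ≤ r → r ≤ R → pX Q c b r R ≤ C * ((r : ℝ) / R) ^ α := by
  obtain ⟨Λ, c0, hΛ, hc0, h⟩ := hS
  have hle : ∀ (c : Bool) (b : ℤ × ℤ) (r : ℤ), 1 ≤ r → pX Q c b r (Λ * r) ≤ max (1 - c0) (1 / 2) :=
    fun c b r hr => (pX_all hQ h c b hr).trans (le_max_left _ _)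
  obtain ⟨α, C, hα, hC, hpow⟩ := pow_decay (a := max (1 - c0) (1 / 2)) (by positivity)
    (max_lt (by linarith) (by norm_num)) hΛ
  refine ⟨α, C, hα, hC, fun c b r R hr hrR => hpow _ r R hr hrR ?_⟩
  have key : ∀ (n : ℕ) (r : ℤ), 1 ≤ r → r ≤ R → Λ ^ n * r ≤ R →
      pX Q c b r R ≤ max (1 - c0) (1 / 2) ^ n := by
    intro n
    induction n with
    | zero =>
      intro r hr hrR _
      rw [pow_zero]
      exact Pr_le_one (by linarith) _
    | succ n ih =>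
      intro r hr hrR hn
      have hΛn : (1 : ℤ) ≤ Λ ^ n := one_le_pow₀ (by omega)
      have e : Λ ^ n * (Λ * r) = Λ ^ (n + 1) * r := by ring
      have h1 : Λ * r ≤ R := by
        have : 1 * (Λ * r) ≤ Λ ^ n * (Λ * r) := mul_le_mul_of_nonneg_right hΛn (by positivity)
        omega
      have h2 := ih (Λ * r) (by nlinarith) h1 (by rw [e]; exact hn)
      refine (pX_mul hQ hr (by nlinarith) h1).trans ?_
      rw [pow_succ, mul_comm]
      exact mul_le_mul h2 (hle c b r hr) (pX_nonneg hQ) (by positivity)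
  exact fun n hn => key n r hr hrR hn

/-! ### Both stages -/

theorem stagesQ (hQ : 1 ≤ Q) (hr : 1 ≤ r) (h1 : r < m1) (h12 : m1 ≤ m2) (h2 : m2 ≤ R) {p : ℝ}
    (hp1 : p ≤ 1) (hX1 : ∀ c, pX Q c b r m1 ≤ p) (hX2 : ∀ c, pX Q c b m2 R ≤ p)
    (hD : dF b r R ⊆ D) (hη : Good η) :
    (1 - p) ^ 4 * Pr Q D η {ω | Y1 c b r R ω} ≤ Pr Q D η (E3 c b r R m1 m2) := by
  have hQ0 : 0 < Q := by linarith
  have k1 := stageQ hQ (s := false) (c := c) hr h1 h12 h2 hp1 (hX1 c) (hX2 c) hD hη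
    (past_Y1 c b r R) (fun ω h => h.1)
  have k2 := stageQ hQ (s := true) (c := !c) hr h1 h12 h2 hp1 (hX1 _) (hX2 _) hD hη
    (past_Y2 (!c) b (m1 := m1) (m2 := m2) hr (by omega)) (fun ω h => h.1)
  rw [Bool.not_false] at k1
  rw [Bool.not_true, Bool.not_not] at k2
  have k3 : Pr Q D η ({ω | Y1 c b r R ω} ∩ Pe true (!c) b r R m1 m2) ≤
      Pr Q D η {ω | Y2 (!c) b r R m1 m2 ω} := by
    refine Pr_mono hQ0 ?_
    rintro ω ⟨g1, g2⟩
    refine Y2_of hr (by omega) g2 ?_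
    rw [Bool.not_not]
    exact Xc_of_Y1 g1
  have k4 : Pr Q D η ({ω | Y2 (!c) b r R m1 m2 ω} ∩ Pe false c b r R m1 m2) ≤
      Pr Q D η (E3 c b r R m1 m2) := by
    refine Pr_mono hQ0 ?_
    rintro ω ⟨g1, g2⟩
    exact ⟨Pe_of_Y2 g1, g2⟩
  have hp0 : 0 ≤ (1 - p) ^ 2 := by positivity
  calc (1 - p) ^ 4 * Pr Q D η {ω | Y1 c b r R ω}
      = (1 - p) ^ 2 * ((1 - p) ^ 2 * Pr Q D η {ω | Y1 c b r R ω}) := by ring
    _ ≤ (1 - p) ^ 2 * Pr Q D η {ω | Y2 (!c) b r R m1 m2 ω} :=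
        mul_le_mul_of_nonneg_left (k1.trans k3) hp0
    _ ≤ _ := k2.trans k4

/-! ### Counting -/

theorem E3_disjQ {m : ℤ} (hr : 1 ≤ r) (h0 : 0 ≤ m1) (h1 : 2 * m1 < m) (h2 : m ≤ m2)
    (hR : 0 ≤ R) {ω : Cfg} (h : ω ∈ E3 c b r R m1 m2)
    (h' : ω ∈ E3 c (b.1 + m, b.2) r R m1 m2) : False := by
  obtain ⟨t1, t1', g1, g2, g3, g4, g5, g6⟩ := h.1
  obtain ⟨t2, t2', k1, k2, k3, k4, k5, k6⟩ := h'.2
  simp only [bp, sgn, if_true, Bool.false_eq_true, if_false, one_mul] at g5 g6 k5 k6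
  have e1 : (cs c ω)ᶜ = cs (!c) ω := cs_compl c ω
  refine exclH (F := cs c ω) (b2 := b.2) (a := b.1 - R) (c := b.1 + m + R) (d := b.2 + R)
    (e := pr c) (x1 := b.1 + m + -1 * t2') (x2 := b.1 + t1) (x3 := b.1 + m + -1 * t2)
    (x4 := b.1 + t1') (pr_or c) (by omega) (by omega) (by omega) (by omega) (by omega) (by omega)
    ?_ ?_ (k6.symm.mono ?_) ?_
  · have := k6.parity
    dsimp only at this
    omega
  · rw [g5, pr_not]
  · rintro v ⟨hv1, hv2⟩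
    refine ⟨hv1, ?_⟩
    simp only [TA.dq, TA.bq, Set.mem_ofPred_eq] at hv2 ⊢
    omega
  · rw [e1]
    refine g6.mono ?_
    rintro v ⟨hv1, hv2⟩
    refine ⟨hv1, ?_⟩
    simp only [TA.dq, TA.bq, Set.mem_ofPred_eq] at hv2 ⊢
    omega

theorem loc_E3 : Loc (dF b r R) ((E3 c b r R m1 m2).indicator (1 : Cfg → ℝ)) := by
  intro ω ω' h
  have h1 : ω ∈ E3 c b r R m1 m2 ↔ ω' ∈ E3 c b r R m1 m2 :=
    ⟨fun h1 => dep_E3 _ _ h h1, fun h1 => dep_E3 _ _ (fun v hv => (h v hv).symm) h1⟩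
  by_cases h2 : ω ∈ E3 c b r R m1 m2
  · rw [Set.indicator_of_mem h2, Set.indicator_of_mem (h1.1 h2)]
    rfl
  · rw [Set.indicator_of_notMem h2, Set.indicator_of_notMem fun h3 => h2 (h1.2 h3)]

end Vale.Agent.P167.H192.Q
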