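import Vale.Agent.P167.H318.Q.Gate
import Vale.Agent.P167.H192.Q.ArcP
import Vale.Agent.P167.H192.Q.Arm2
import Vale.Agent.P167.H192.TA.Arc2

/-!
# P167, general `q`, block Q-NSYM: arcs from the banks of the past to the side

`farc_ge`: the filled arcs (`fil e T (CU e S T u)` joins the bottom in the east to the bottom in the west
by the colour `e` in the half annulus `T`). `arc_true`, `arc_false`: they give `OArc`, `DArc`.
-/

namespace Vale.Agent.P167.H192.ArcQ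

open Finset Relation Vale.Agent.P167 Vale.Agent.P167.FK Vale.Agent.P167.FKA Vale.Agent.P167.H192.TA
  Vale.Agent.P167.H192.Q Vale.Agent.P167.H192.ArcP
open Vale.Agent.P145.FB (PStep PConn)
open Vale.Agent.P167.H259 (f_markov)
open Vale.Agent.P167.H318 (St Pt0 PO HB exists_pt0)
open Vale.Agent.P167.H632 (pr pr_or pr_not cs cs_compl cs_false IncC)
open Vale.Agent.P167.H704.Q (fil CU cst good_cst bk TOk link contact CU_sub CU_fresh fil_in
  mem_CU fil_loc)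
open Vale.Agent.P167.H318.UQ (OArc DArc LB RB Oc Dc)

variable {Q : ℝ} {e : Bool} {b r R : ℤ} {S : St} {u : ℤ × ℤ → ℤ} {ζ : Cfg}

/-- The colour `e` joins the two rays in the half annulus. -/
def ArcE (e : Bool) (b : ℤ × ℤ) (r R : ℤ) : Set Cfg :=
  {ω | ∃ x x', b.1 - R ≤ x ∧ x ≤ b.1 - r ∧ b.1 + r ≤ x' ∧ x' ≤ b.1 + R ∧ (x + b.2) % 2 = pr e ∧
    Pw (cs e ω ∩ TA.dq b r R) (x, b.2) (x', b.2)}

theorem inc_ArcE (e : Bool) (b : ℤ × ℤ) (r R : ℤ) : IncC e (ArcE e b r R) := by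
  rintro o o' ho ⟨x, x', h1, h2, h3, h4, h5, h6⟩
  refine ⟨x, x', h1, h2, h3, h4, h5, h6.mono ?_⟩
  rintro v ⟨hv1, hv2⟩
  exact ⟨ho v hv1, hv2⟩

theorem arcE_of_not {b : ℤ × ℤ} (hr : 1 ≤ r) (hrR : r ≤ R) {ω : Cfg} (h : ω ∉ Xc (!e) b r R) :
    ω ∈ ArcE e b r R := by
  obtain ⟨x, x', h1, h2, h3, h4, h5, h6⟩ := arc_full (F := cs (!e) ω) (b := b) (pr_or (!e)) hr hrR
    (by
      intro y y' g1 g2 g3 g4
      by_contra hcon
      exact h ⟨y, y', g1, g2, g3, g4, not_lt.1 hcon⟩)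
  refine ⟨x, x', h1, h2, h3, h4, ?_, ?_⟩
  · rw [h5, pr_not]
    ring
  · rw [cs_compl, Bool.not_not] at h6
    exact h6

/-- **Raw arcs.** -/
theorem arcE_ge (hQ : 1 ≤ Q) (hS : SRSW Q) : ∃ (Λ : ℤ) (c : ℝ), 2 ≤ Λ ∧ 0 < c ∧
    ∀ (e : Bool) (b : ℤ × ℤ) (r R : ℤ), 1 ≤ r → Λ * r ≤ R →
      c ≤ Pr Q (dF b r R) (cst (!e)) (ArcE e b r R) := by
  have hQ0 : 0 < Q := by linarith
  obtain ⟨Λ, c, hΛ, hc, h⟩ := hS
  refine ⟨Λ, c, hΛ, hc, fun e b r R hr hR => ?_⟩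
  have hrR : r ≤ Λ * r := by nlinarith
  have h1 : pX Q (!e) b r R ≤ 1 - c := (pX_anti hQ hr hrR hR).trans (pX_all hQ h (!e) b hr)
  have h2 : 1 - pX Q (!e) b r R = Pr Q (dF b r R) (etac (!e)) (Xc (!e) b r R)ᶜ :=
    (Pr_compl hQ0 _).symm
  have h3 : Pr Q (dF b r R) (etac (!e)) (Xc (!e) b r R)ᶜ ≤
      Pr Q (dF b r R) (cst (!e)) (ArcE e b r R) :=
    Pr_mono hQ0 fun ω hω => arcE_of_not hr (hrR.trans hR) hω
  linarith

/-- Only the explored strand is revealed in the half box of radius `R`, the tip is in the hole and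
the column below the tip is fresh. -/
structure AG1 (S : St) (b r R : ℤ) : Prop extends St.Ok S where
  ne : ∀ y, b - R ≤ y → y ≤ b + R → S.e0 ≠ Sum.inr (y, -1)
  mem : ∀ v ∈ HB b R, v ∈ S.D
  not : ∀ x, b - R ≤ x → x ≤ b + R → (x, (-1 : ℤ)) ∉ S.D
  po : PO S (HB b R)
  tip : hdv S.tip ∈ HB b r
  cl : ∀ y, 0 ≤ y → y ≤ (hdv S.tip).2 → ((hdv S.tip).1, y) ∈ S.F

/-- the condition of `H318.UQ` with a fresh column -/
theorem AG1.of (H : H318.UQ.AG S b r R)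
    (hcl : ∀ y, 0 ≤ y → y ≤ (hdv S.tip).2 → ((hdv S.tip).1, y) ∈ S.F) : AG1 S b r R :=
  ⟨H.toOk, H.gq.ne, H.mem, H.not, H.po, H.tip, hcl⟩

/-- a fresh half box which contains the head of the tip contains the column -/
theorem col_fresh {b0 r0 : ℤ} (h : ∀ v ∈ HB b0 r0, v ∈ S.F) (ht : hdv S.tip ∈ HB b0 r0) :
    ∀ y, 0 ≤ y → y ≤ (hdv S.tip).2 → ((hdv S.tip).1, y) ∈ S.F := by
  intro y h1 h2
  obtain ⟨k1, k2, k3, k4⟩ := ht
  exact h _ ⟨k1, k2, h1, by dsimp only; omega⟩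

/-- abscissa of the tip -/
noncomputable def tx (S : St) : ℤ := (hdv S.tip).1

/-- height above the tip -/
noncomputable def th (S : St) : ℤ := (hdv S.tip).2 + 1

/-- the potential of the past, completed by the column below the tip -/
def PtU (S : St) (u : ℤ × ℤ → ℤ) : Prop := Pt0 S (tx S) (th S) u

theorem AG1.tp (H : AG1 S b r R) (hrR : r ≤ R) : Tp S (tx S) (th S) := by
  have h := H.tip
  obtain ⟨h1, h2, h3, h4⟩ := h
  refine ⟨H.toOk, ?_, ?_, ?_, ?_, ?_⟩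
  · unfold th; omega
  · unfold tx th
    rw [add_sub_cancel_right]
  · intro y g1 g2
    exact H.cl y g1 (by unfold th at g2; omega)
  · exact H.not _ (by unfold tx; omega) (by unfold tx; omega)
  · exact H.ne _ (by unfold tx; omega) (by unfold tx; omega)

theorem AG1.exists_pt (H : AG1 S b r R) (hrR : r ≤ R) : ∃ u, PtU S u := by
  have h := H.tp hrR
  exact exists_pt0 h.ok h.hh h.htip h.hx

theorem AG1.tok (H : AG1 S b r R) : TOk S (tx S) (th S) (dF ((b, 0) : ℤ × ℤ) (r + 1) R) := by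
  intro v hv
  have h := mem_dF.1 hv
  simp only [TA.dq, Set.mem_ofPred_eq] at h
  have hHB : v ∈ HB b R := ⟨by omega, by omega, by omega, by omega⟩
  refine ⟨H.mem _ hHB, H.po _ hHB, ?_⟩
  rintro ⟨g1, g2, g3⟩
  obtain ⟨k1, k2, k3, k4⟩ := H.tip
  unfold tx at g1
  unfold th at g3
  omega

/-- values of the potential at the bottom -/
theorem AG1.east (H : AG1 S b r R) (hrR : r ≤ R) (hu : PtU S u) {a : ℤ} (h1 : b + r < a)
    (h2 : a ≤ b + R) : u (a, 0) = u (ls S.tip) := by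
  obtain ⟨k1, k2, k3, k4⟩ := H.tip
  refine bot_east (H.tp hrR) hu (c := b + R) (fun y g1 g2 => ⟨H.mem _ ⟨?_, ?_, ?_, ?_⟩, H.not _ ?_ ?_,
    H.ne _ ?_ ?_⟩) (by unfold tx; omega) h2 <;> unfold tx at g1 <;> (try dsimp only) <;> omega

theorem AG1.west (H : AG1 S b r R) (hrR : r ≤ R) (hu : PtU S u) {a : ℤ} (h1 : a ≤ b - r)
    (h2 : b - R ≤ a) : u (a, 0) = u (rs S.tip) := by
  obtain ⟨k1, k2, k3, k4⟩ := H.tip
  refine bot_west (H.tp hrR) hu (c := b - R) (fun y g1 g2 => ⟨H.mem _ ⟨?_, ?_, ?_, ?_⟩, H.not _ ?_ ?_,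
    H.ne _ ?_ ?_⟩) (by unfold tx; omega) h2 <;> unfold tx at g2 <;> (try dsimp only) <;> omega

/-- **Filled arcs**, whatever happens outside of the squares of `CU`. -/
theorem farc_ge (hQ : 1 ≤ Q) (hS : SRSW Q) : ∃ (Λ0 : ℤ) (c : ℝ), 4 ≤ Λ0 ∧ 0 < c ∧
    ∀ (e : Bool) (S : St) (b r R : ℤ) (u : ℤ × ℤ → ℤ) (ζ : Cfg), 1 ≤ r → Λ0 * r ≤ R →
      AG1 S b r R → PtU S u → Good ζ → (∀ v, v ∉ S.F → ζ v = S.z v) →
      c ≤ Pr Q (CU e S (dF ((b, 0) : ℤ × ℤ) (r + 1) R) u) ζ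
        {ξ | fil e (dF ((b, 0) : ℤ × ℤ) (r + 1) R) (CU e S (dF ((b, 0) : ℤ × ℤ) (r + 1) R) u) ξ ∈
          ArcE e (b, 0) (r + 1) R} := by
  obtain ⟨Λ, c, hΛ, hc, h⟩ := arcE_ge hQ hS
  refine ⟨2 * Λ, c, by omega, hc, fun e S b r R u ζ hr hR H hu hg hz => ?_⟩
  have h1 : Λ * (r + 1) ≤ R := by nlinarith
  have hrR : r ≤ R := by nlinarith
  have htp := H.tp hrR
  exact (h e (b, 0) (r + 1) R (by omega) h1).trans (link hQ hu H.toOk htp.hh htp.htip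
    (past' htp hu) H.tok hg hz (inc_ArcE e _ _ _))

/-- from `CU` to any set of fresh squares which contains it -/
theorem farc_dom (hQ : 1 ≤ Q) {C A : Finset (ℤ × ℤ)} (hCA : C ⊆ A) (hA : A ⊆ S.F) (hg : Good ζ)
    (hz : ∀ v, v ∉ S.F → ζ v = S.z v) {E : Set Cfg} {c : ℝ}
    (h : ∀ ζ, Good ζ → (∀ v, v ∉ S.F → ζ v = S.z v) → c ≤ Pr Q C ζ E) : c ≤ Pr Q A ζ E := by
  have hQ0 : 0 < Q := by linarith
  unfold Pr
  rw [f_markov Q C A ζ _ hQ0 hCA hg, ← Ex_const (Q := Q) (D := A) (η := ζ) hQ0 c]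
  refine Ex_mono hQ0 fun T _ => h _ (f_good.1 A ζ T hg) fun v hv => ?_
  rw [cf_out fun h => hv (hA h)]
  exact hz v hv

theorem pw_pconn {G G' : Set (ℤ × ℤ)} (hG : G ⊆ G') {s t : ℤ × ℤ} (h : Pw G s t) :
    PConn G' Set.univ s t := by
  refine ⟨trivial, ?_⟩
  induction h with
  | refl => exact ReflTransGen.refl
  | tail _ h ih => exact ih.tail ⟨⟨h.1, h.2.1, hG h.2.2⟩, trivial⟩

theorem pconn_sub {G G' : Set (ℤ × ℤ)} (hG : G ⊆ G') {s t : ℤ × ℤ} (h : PConn G Set.univ s t) :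
    PConn G' Set.univ s t := h.mono hG subset_rfl

/-- the squares of the half annulus of the gate -/
theorem CU_an : CU e S (dF ((b, 0) : ℤ × ℤ) (r + 1) R) u ⊆
    S.F ∩ H318.UQ.An b r R := by
  intro v hv
  have h1 := CU_fresh hv
  have h2 := mem_dF.1 (CU_sub hv)
  simp only [TA.dq, Set.mem_ofPred_eq] at h2
  refine Finset.mem_inter.2 ⟨h1, Finset.mem_sdiff.2 ⟨?_, ?_⟩⟩
  · rw [H685.Q.mem_hbF]
    exact ⟨by omega, by omega, by omega, by omega⟩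
  · rw [H685.Q.mem_hbF]
    rintro ⟨g1, g2, g3, g4⟩
    omega

/-- **A filled open arc gives an open arc from the left bank to the bottom in the east.** -/
theorem arc_true (H : AG1 S b r R) (hr : 1 ≤ r) (hrR : r ≤ R) (hu : PtU S u) {ξ : Cfg}
    (h : fil true (dF ((b, 0) : ℤ × ℤ) (r + 1) R) (CU true S (dF ((b, 0) : ℤ × ℤ) (r + 1) R) u) ξ ∈
      ArcE true (b, 0) (r + 1) R) : OArc S b r R ξ := by
  obtain ⟨x, x', h1, h2, h3, h4, h5, h6⟩ := h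
  dsimp only at h1 h2 h3 h4 h5 h6
  have htp := H.tp hrR
  have hp := past' htp hu
  have h7 : u (ls S.tip) = u (rs S.tip) + 1 := hp S.m le_rfl
  have hpar := Pw.parity h6
  dsimp only at hpar
  obtain ⟨i, hi, hc⟩ := contact (e := true) (Rg := Set.univ) (a := (x', 0)) (c := (x, 0)) hu H.toOk
    htp.hh htp.htip hp H.tok (by dsimp only; omega) (pw_pconn Set.inter_subset_left (Pw.symm h6))
    (H.east hrR hu (by omega) h4) (by
      rw [H.west hrR hu (by omega) h1]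
      show u (rs S.tip) ≠ u (ls S.tip)
      omega)
  refine ⟨ls (H318.st S.e0 S.z i), (x', 0), ⟨i, hi, rfl⟩, rfl, by dsimp only; omega, ?_⟩
  refine (pconn_sub ?_ hc).symm
  rintro v ⟨hv1, hv2⟩
  exact ⟨hv1, Finset.mem_coe.2 (CU_an (Finset.mem_coe.1 hv2))⟩

/-- **A filled dual arc gives a dual arc from the right bank to the bottom in the west.** -/
theorem arc_false (H : AG1 S b r R) (hr : 1 ≤ r) (hrR : r ≤ R) (hu : PtU S u) {ξ : Cfg}
    (h : fil false (dF ((b, 0) : ℤ × ℤ) (r + 1) R) (CU false S (dF ((b, 0) : ℤ × ℤ) (r + 1) R) u) ξ ∈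
      ArcE false (b, 0) (r + 1) R) : DArc S b r R ξ := by
  obtain ⟨x, x', h1, h2, h3, h4, h5, h6⟩ := h
  dsimp only at h1 h2 h3 h4 h5 h6
  have htp := H.tp hrR
  have hp := past' htp hu
  have h7 : u (ls S.tip) = u (rs S.tip) + 1 := hp S.m le_rfl
  obtain ⟨i, hi, hc⟩ := contact (e := false) (Rg := Set.univ) (a := (x, 0)) (c := (x', 0)) hu H.toOk
    htp.hh htp.htip hp H.tok (by dsimp only; omega) (pw_pconn Set.inter_subset_left h6)
    (H.west hrR hu (by omega) h1) (by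
      rw [H.east hrR hu (by omega) h4]
      show u (ls S.tip) ≠ u (rs S.tip)
      omega)
  refine ⟨rs (H318.st S.e0 S.z i), (x, 0), ⟨i, hi, rfl⟩, rfl, by dsimp only; omega, ?_⟩
  refine (pconn_sub ?_ hc).symm
  rintro v ⟨hv1, hv2⟩
  refine ⟨?_, Finset.mem_coe.2 (CU_an (Finset.mem_coe.1 hv2))⟩
  rw [cs_false] at hv1
  exact hv1

/-- **ARCO**, form with `AG1`. -/
theorem arco1 (hQ : 1 ≤ Q) (hS : SRSW Q) : ∃ (Λ0 : ℤ) (c : ℝ), 4 ≤ Λ0 ∧ 0 < c ∧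
    ∀ (S : St) (b r R : ℤ) (ζ : Cfg), 1 ≤ r → Λ0 * r ≤ R → AG1 S b r R → Good ζ →
      (∀ v, v ∉ S.F → ζ v = S.z v) →
      c ≤ Pr Q (S.F ∩ H318.UQ.An b r R) ζ {ξ | OArc S b r R ξ} ∧
      c ≤ Pr Q (S.F ∩ H318.UQ.An b r R) ζ {ξ | DArc S b r R ξ} := by
  have hQ0 : 0 < Q := by linarith
  obtain ⟨Λ0, c, hΛ, hc, h⟩ := farc_ge hQ hS
  refine ⟨Λ0, c, hΛ, hc, fun S b r R ζ hr hR H hg hz => ?_⟩
  have hrR : r ≤ R := by nlinarith
  obtain ⟨u, hu⟩ := H.exists_pt hrR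
  constructor
  · refine farc_dom hQ (CU_an (e := true) (u := u)) Finset.inter_subset_left hg hz
      fun ζ' hg' hz' => ?_
    exact (h true S b r R u ζ' hr hR H hu hg' hz').trans
      (Pr_mono hQ0 fun ξ hξ => arc_true H hr hrR hu hξ)
  · refine farc_dom hQ (CU_an (e := false) (u := u)) Finset.inter_subset_left hg hz
      fun ζ' hg' hz' => ?_
    exact (h false S b r R u ζ' hr hR H hu hg' hz').trans
      (Pr_mono hQ0 fun ξ hξ => arc_false H hr hrR hu hξ)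

end Vale.Agent.P167.H192.ArcQ
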