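import Vale.Agent.P167.H192.Q.Arm2
import Vale.Agent.P167.FKA.All

/-!
# P167, general `q`, block Q-I23: one and two crossings of a half annulus by the interface

`i2q : 1 ≤ Q → RSW Q → SRSW Q → I2Q Q`, `i3q : 1 ≤ Q → RSW Q → SRSW Q → I3Q Q`.
-/

namespace Vale.Agent.P167.H192.Q

open Finset Relation Vale.Agent.P167 Vale.Agent.P167.FK Vale.Agent.P167.FKA Vale.Agent.P167.H192.TA
  Vale.Agent.P167.H632 Vale.Agent.P167.H558 Vale.Agent.P167.H871
open Vale.Agent.P145.FB (PStep PConn)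
open Vale.Agent.P167.H259 (f_markov f_fkg f_comp f_comp2 Ex_out cf_cf PC_mono)
open Vale.Agent.P167.H365 (hA TwoS ThrS mem_hA)

variable {Q : ℝ} {D A : Finset (ℤ × ℤ)} {η η' : Cfg} {F G : Cfg → ℝ} {c e : Bool} {b : ℤ × ℤ}
  {r r1 R1 R m1 m2 M : ℤ}

/-! ### Flat annuli -/

/-- In the annulus the domain is the half-plane, with the state `e` below. -/
def FlS (e : Bool) (D : Finset (ℤ × ℤ)) (η : Cfg) (b : ℤ × ℤ) (r R : ℤ) : Prop :=
  ∀ v ∈ An b r R, (v ∈ D ↔ b.2 ≤ v.2) ∧ (v.2 < b.2 → η v = e)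

theorem mem_An {v : ℤ × ℤ} : v ∈ An b r R ↔ (b.1 - R ≤ v.1 ∧ v.1 < b.1 + R ∧ b.2 - R ≤ v.2 ∧
    v.2 < b.2 + R) ∧ ¬ (b.1 - r ≤ v.1 ∧ v.1 < b.1 + r ∧ b.2 - r ≤ v.2 ∧ v.2 < b.2 + r) := by
  simp only [An, Bq, Finset.mem_sdiff, Finset.mem_product, Finset.mem_Ico]
  tauto

theorem FlatA.fls (h : FlatA e D η b r R) : FlS e D η b r R := by
  intro v hv
  rw [mem_An] at hv
  refine h v ?_ ?_
  · rw [le_nm]
    simp only [Prod.fst_sub, Prod.snd_sub]
    omega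
  · rw [nm_le]
    simp only [Prod.fst_sub, Prod.snd_sub]
    omega

theorem dF_An : dF b r R ⊆ An b r R := by
  intro v hv
  have h := mem_dF.1 hv
  simp only [TA.dq, Set.mem_ofPred_eq] at h
  rw [mem_An]
  omega

theorem FlS.dF (h : FlS e D η b r R) : dF b r R ⊆ D := by
  intro v hv
  refine (h v (dF_An hv)).1.2 ?_
  have h := mem_dF.1 hv
  simp only [TA.dq, Set.mem_ofPred_eq] at h
  omega

theorem FlS.sd (h : FlS e D η b r R) : SdA e b r R D η := by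
  intro v hv hvD
  obtain ⟨h1, h2⟩ := h v hv
  exact h2 (by
    by_contra h3
    exact hvD (h1.2 (by omega)))

/-- The half box. -/
noncomputable def HBx (b : ℤ × ℤ) (N : ℤ) : Finset (ℤ × ℤ) := (Bq b N).filter fun v => b.2 ≤ v.2

theorem mem_HBx {N : ℤ} {v : ℤ × ℤ} : v ∈ HBx b N ↔ b.1 - N ≤ v.1 ∧ v.1 < b.1 + N ∧ b.2 ≤ v.2 ∧
    v.2 < b.2 + N := by
  simp only [HBx, Bq, Finset.mem_filter, Finset.mem_product, Finset.mem_Ico]
  omega

theorem ind_imp2 {A B : Set Cfg} {ω ω' : Cfg} (h : ω ∈ A → ω' ∈ B) :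
    A.indicator (1 : Cfg → ℝ) ω ≤ B.indicator 1 ω' := by
  by_cases h1 : ω ∈ A
  · rw [Set.indicator_of_mem h1, Set.indicator_of_mem (h h1)]
    exact le_refl (1 : ℝ)
  · rw [Set.indicator_of_notMem h1]
    exact ind_nonneg _ _

/-- Comparison with a half box around another point of the side. -/
theorem to_box (hQ : 1 ≤ Q) (hM : Rat4 Q M) (hs : Sc M r r1 R1 R) (hη : Good η)
    (hfl : FlS e D η b r R) {k N : ℤ} (hk0 : 0 ≤ k) (hk : k % 2 = 0) (hN : k + R ≤ N) :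
    Pr Q D η (E3 c b r1 R1 m1 m2) ≤
      8 * Pr Q (HBx b N) (etac e) (E3 c (b.1 + k, b.2) r1 R1 m1 m2) := by
  have hQ0 : 0 < Q := by linarith
  obtain ⟨a1, a2, a3, a4, a5⟩ := hs.le hM.1
  have h0 := hs.h0
  have h2 := hs.h2
  have hdd : dF b r1 R1 ⊆ dF b r R := dF_mono (by omega) (by omega)
  have k1 : Pr Q D η (E3 c b r1 R1 m1 m2) ≤
      8 * Pr Q (HBx (b.1 - k, b.2) N) (etac e) (E3 c b r1 R1 m1 m2) := by
    refine rat_ann_e e hQ hM hs (V := dF b r1 R1) ?_ (hdd.trans hfl.dF)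
      dF_An (fun _ => ind_nonneg _ _) loc_E3 hη (good_etac e) hfl.sd ?_
    · ext v
      rw [Finset.mem_inter, Finset.mem_inter]
      refine and_congr_left fun hv => ?_
      rw [(hfl v hv).1, mem_HBx]
      rw [mem_An] at hv
      dsimp only
      omega
    · intro v _ _
      rfl
  refine k1.trans ?_
  refine mul_le_mul_of_nonneg_left ?_ (by norm_num)
  have hsy := sy_tr (k, 0) (by rw [Int.even_iff]; dsimp only; omega)
  have e1 : etac e ∘ (fun v : ℤ × ℤ => (v.1 + (k, (0 : ℤ)).1, v.2 + (k, (0 : ℤ)).2)) = etac e := by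
    funext v
    rfl
  have e2 : (HBx (b.1 - k, b.2) N).image
      (fun v : ℤ × ℤ => (v.1 + (k, (0 : ℤ)).1, v.2 + (k, (0 : ℤ)).2)) = HBx b N := by
    ext v
    rw [Finset.mem_image, mem_HBx]
    constructor
    · rintro ⟨w, hw, rfl⟩
      rw [mem_HBx] at hw
      dsimp only at hw ⊢
      omega
    · intro hv
      refine ⟨(v.1 - k, v.2), ?_, ?_⟩
      · rw [mem_HBx]
        dsimp only
        omega
      · refine Prod.ext ?_ ?_ <;> dsimp only <;> omega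
  have h3 := hsy.2 Q (HBx (b.1 - k, b.2) N) (etac e) ((E3 c b r1 R1 m1 m2).indicator 1) hQ0
    (good_etac e)
  rw [e1, e2] at h3
  unfold Pr
  rw [h3]
  refine Ex_mono hQ0 fun S _ => ?_
  refine ind_imp2 ?_
  intro h
  have e3 : ∀ ω : Cfg, (ω ∘ fun v : ℤ × ℤ => (v.1 + (k, (0 : ℤ)).1, v.2 + (k, (0 : ℤ)).2)) =
      fun w => ω (w.1 + k, w.2) := by
    intro ω
    funext w
    show ω (w.1 + k, w.2 + 0) = ω (w.1 + k, w.2)
    rw [add_zero]
  rw [e3] at h
  exact ⟨Pe_shift hk h.1, Pe_shift hk h.2⟩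

/-- Disjoint events. -/
theorem sum_ind_le {A : ℕ → Set Cfg} {n : ℕ} {ω : Cfg}
    (h : ∀ i j, i < j → j < n → ω ∈ A i → ω ∈ A j → False) :
    ∑ j ∈ Finset.range n, (A j).indicator (1 : Cfg → ℝ) ω ≤ 1 := by
  by_cases h1 : ∃ j, j < n ∧ ω ∈ A j
  · obtain ⟨j, hj, hA⟩ := h1
    rw [Finset.sum_eq_single j]
    · rw [Set.indicator_of_mem hA]
      exact le_refl (1 : ℝ)
    · intro i hi hij
      rw [Finset.mem_range] at hi
      refine Set.indicator_of_notMem (fun h2 => ?_) _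
      rcases lt_or_gt_of_ne hij with h3 | h3
      · exact h i j h3 hj h2 hA
      · exact h j i h3 hi hA h2
    · intro h2
      exact absurd (Finset.mem_range.2 hj) h2
  · refine le_trans (le_of_eq (Finset.sum_eq_zero fun j hj => ?_)) zero_le_one
    exact Set.indicator_of_notMem (fun h2 => h1 ⟨j, Finset.mem_range.1 hj, h2⟩) _

/-- **Counting.** -/
theorem E3_count (hQ : 1 ≤ Q) (hM : Rat4 Q M) (hs : Sc M r r1 R1 R) (hη : Good η)
    (hfl : FlS e D η b r R) (hm : 0 ≤ m1) (n : ℕ) (hn : (2 * m1 + 2) * n ≤ m2) :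
    (n : ℝ) * Pr Q D η (E3 c b r1 R1 m1 m2) ≤ 8 := by
  have hQ0 : 0 < Q := by linarith
  obtain ⟨a1, a2, a3, a4, a5⟩ := hs.le hM.1
  have h2 := hs.h2
  set s : ℤ := 2 * m1 + 2 with hsd
  have hs2 : 2 ≤ s := by omega
  have k1 : ∀ j ∈ Finset.range n, Pr Q D η (E3 c b r1 R1 m1 m2) ≤
      8 * Pr Q (HBx b (s * n + R)) (etac e) (E3 c (b.1 + s * j, b.2) r1 R1 m1 m2) := by
    intro j hj
    rw [Finset.mem_range] at hj
    have hj' : (j : ℤ) ≤ n := by exact_mod_cast hj.le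
    refine to_box hQ hM hs hη hfl (by positivity) ?_ ?_
    · rw [hsd]
      have e : (2 * m1 + 2) * (j : ℤ) = 2 * ((m1 + 1) * j) := by ring
      rw [e]
      omega
    · have := mul_le_mul_of_nonneg_left hj' (show 0 ≤ s by omega)
      linarith
  have k2 := Finset.sum_le_sum k1
  rw [Finset.sum_const, Finset.card_range, nsmul_eq_mul, ← Finset.mul_sum] at k2
  refine k2.trans ?_
  have k3 : ∑ j ∈ Finset.range n, Pr Q (HBx b (s * n + R)) (etac e)
      (E3 c (b.1 + s * j, b.2) r1 R1 m1 m2) ≤ 1 := by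
    unfold Pr
    rw [← Ex_sum, ← Ex_const (Q := Q) (D := HBx b (s * n + R)) (η := etac e) hQ0 1]
    refine Ex_mono hQ0 fun S _ => ?_
    refine sum_ind_le fun i j hij hj h h' => ?_
    have hij' : (i : ℤ) + 1 ≤ j := by exact_mod_cast hij
    have hj' : (j : ℤ) ≤ n := by exact_mod_cast hj.le
    have hi0 : (0 : ℤ) ≤ i := by positivity
    refine E3_disjQ (b := (b.1 + s * i, b.2)) (m := s * (j - i)) a3 hm (by nlinarith)
      (by nlinarith) (by omega) h ?_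
    have e : b.1 + s * i + s * (j - i) = b.1 + s * (j : ℤ) := by ring
    dsimp only
    rw [e]
    exact h'
  linarith

/-! ### The event `Y1` -/

theorem Y1_leQ (hQ : 1 ≤ Q) (hM : Rat4 Q M) (hS : SRSW Q) : ∃ C : ℝ, 0 < C ∧
    ∀ (e c : Bool) (D : Finset (ℤ × ℤ)) (η : Cfg) (b : ℤ × ℤ) (r r1 R1 R : ℤ),
      Sc M r r1 R1 R → Good η → FlS e D η b r R →
      Pr Q D η {ω | Y1 c b r1 R1 ω} ≤ C * ((r1 : ℝ) / R1) := by
  have hQ0 : 0 < Q := by linarith
  obtain ⟨Λ, c0, hΛ, hc0, hX⟩ := hS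
  have hΛ' : (2 : ℝ) ≤ Λ := by exact_mod_cast hΛ
  refine ⟨4 * Λ ^ 2 * max 1 (16 / c0 ^ 4), by positivity, fun e c D η b r r1 R1 R hs hη hfl => ?_⟩
  obtain ⟨a1, a2, a3, a4, a5⟩ := hs.le hM.1
  have h2 := hs.h2
  have hr' : (1 : ℝ) ≤ r1 := by exact_mod_cast a3
  have hR' : (r1 : ℝ) ≤ R1 := by exact_mod_cast h2
  have hRp : (0 : ℝ) < R1 := by linarith
  have hrp : (0 : ℝ) < r1 := by linarith
  have hmx : 1 ≤ max 1 (16 / c0 ^ 4) := le_max_left _ _
  by_cases hbig : R1 < 4 * Λ ^ 2 * r1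
  · have h1 : (R1 : ℝ) < 4 * Λ ^ 2 * r1 := by exact_mod_cast hbig
    have h3 : (1 : ℝ) ≤ 4 * Λ ^ 2 * (r1 / R1) := by
      rw [← mul_div_assoc, le_div_iff₀ hRp]
      linarith
    calc Pr Q D η {ω | Y1 c b r1 R1 ω} ≤ 1 := Pr_le_one hQ0 _
      _ ≤ 4 * Λ ^ 2 * ((r1 : ℝ) / R1) := h3
      _ = 4 * Λ ^ 2 * 1 * ((r1 : ℝ) / R1) := by ring
      _ ≤ _ := by
        refine mul_le_mul_of_nonneg_right ?_ (by positivity)
        exact mul_le_mul_of_nonneg_left hmx (by positivity)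
  · push Not at hbig
    have hK : 0 < 4 * Λ ^ 2 * r1 := by positivity
    obtain ⟨n, hn⟩ : ∃ n : ℕ, (n : ℤ) = R1 / (4 * Λ ^ 2 * r1) :=
      ⟨(R1 / (4 * Λ ^ 2 * r1)).toNat, Int.toNat_of_nonneg (Int.ediv_nonneg (by omega) hK.le)⟩
    have hn1 : (1 : ℤ) ≤ n := by
      rw [hn, Int.le_ediv_iff_mul_le hK]
      omega
    have hn2 : 4 * Λ ^ 2 * r1 * n ≤ R1 := by
      rw [hn, mul_comm]
      exact Int.ediv_mul_le R1 hK.ne'
    have hn3 : R1 < (n + 1) * (4 * Λ ^ 2 * r1) := by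
      rw [hn]
      exact Int.lt_ediv_add_one_mul_self R1 hK
    have hΛr : 1 ≤ Λ * r1 := by nlinarith
    have hm2 : (2 * (Λ * r1) + 2) * n ≤ R1 / Λ := by
      rw [Int.le_ediv_iff_mul_le (by omega)]
      have h4 : (2 * (Λ * r1) + 2) * n * Λ ≤ 4 * (Λ * r1) * n * Λ := by
        refine mul_le_mul_of_nonneg_right ?_ (by omega)
        exact mul_le_mul_of_nonneg_right (by omega) (by omega)
      have e : 4 * (Λ * r1) * n * Λ = 4 * Λ ^ 2 * r1 * n := by ring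
      rw [e] at h4
      exact h4.trans hn2
    have hm12 : Λ * r1 ≤ R1 / Λ := by
      have h5 : (2 * (Λ * r1) + 2) * 1 ≤ (2 * (Λ * r1) + 2) * (n : ℤ) :=
        mul_le_mul_of_nonneg_left hn1 (by omega)
      omega
    have hm2R : R1 / Λ ≤ R1 := Int.ediv_le_self _ (by omega)
    have hd : Λ * (R1 / Λ) ≤ R1 := Int.mul_ediv_self_le (by omega)
    have hXr : ∀ c, pX Q c b r1 (Λ * r1) ≤ 1 - c0 := fun c => pX_all hQ hX c b a3
    have hXR : ∀ c, pX Q c b (R1 / Λ) R1 ≤ 1 - c0 := fun c =>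
      (pX_anti hQ (by omega) (by nlinarith) hd).trans (pX_all hQ hX c b (by omega))
    have h3 := stagesQ (c := c) hQ a3 (m1 := Λ * r1) (m2 := R1 / Λ) (p := 1 - c0) (by nlinarith)
      hm12 hm2R (by linarith) hXr hXR ((dF_mono (by omega) (by omega)).trans hfl.dF) hη
    rw [sub_sub_cancel] at h3
    have h4 := E3_count (c := c) hQ hM hs hη hfl (m1 := Λ * r1) (m2 := R1 / Λ) (by omega) n hm2
    have hnp : (0 : ℝ) < n := by exact_mod_cast (by omega : (0 : ℤ) < n)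
    have hn4 : (R1 : ℝ) ≤ 2 * n * (4 * Λ ^ 2 * r1) := by
      have h5 : R1 ≤ 2 * n * (4 * Λ ^ 2 * r1) := by
        refine hn3.le.trans ?_
        exact mul_le_mul_of_nonneg_right (by omega) hK.le
      exact_mod_cast h5
    have h5 : c0 ^ 4 * Pr Q D η {ω | Y1 c b r1 R1 ω} ≤ 8 / n := by
      refine h3.trans ?_
      rw [le_div_iff₀ hnp]
      linarith
    have h6 : (8 : ℝ) / n ≤ 16 * (4 * Λ ^ 2) * (r1 / R1) := by
      rw [← mul_div_assoc, div_le_div_iff₀ hnp hRp]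
      linarith
    have h7 : Pr Q D η {ω | Y1 c b r1 R1 ω} ≤ 16 * (4 * Λ ^ 2) * (r1 / R1) / c0 ^ 4 := by
      rw [le_div_iff₀ (by positivity)]
      linarith
    refine h7.trans ?_
    have e : 16 * (4 * Λ ^ 2) * ((r1 : ℝ) / R1) / c0 ^ 4 =
        4 * Λ ^ 2 * (16 / c0 ^ 4) * (r1 / R1) := by
      ring
    rw [e]
    refine mul_le_mul_of_nonneg_right ?_ (by positivity)
    exact mul_le_mul_of_nonneg_left (le_max_right _ _) (by positivity)

/-! ### The third arm -/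

theorem F3_restrict (hr : 1 ≤ r) (h1 : r ≤ r1) (h2 : r1 ≤ R1) (h3 : R1 ≤ R) {ω : Cfg}
    (h : ThrS b r R ω) : ω ∈ F3 c b r1 R1 := by
  obtain ⟨y0, y1, g1, g2, g3, g4, g5, g6⟩ := sep_cro hr (h1.trans (h2.trans h3)) h c
  have hy : b.2 ≤ y0.2 := by
    simp only [sr, Set.mem_ofPred_eq] at g1
    omega
  obtain ⟨z0, z1, k1, k2, k3, k4, k5⟩ := cut_dq (G := cs c ω ∩ TA.dq b r R) h2 hy
    (fun v hv => by have := hv.2; simp only [TA.dq, Set.mem_ofPred_eq] at this; omega) g4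
    (g3.trans h1) (h3.trans g5)
  have hsub : TA.dq b r1 R1 ⊆ TA.dq b r R := dq_mono h1 h3
  refine ⟨z0, z1, fun hz => ?_, k2, by rw [← k1.parity, g2], k3,
    k4.mono (Set.inter_subset_inter_left _ Set.inter_subset_left), k5⟩
  obtain ⟨p, ⟨p1, p2, p3, -⟩, p4⟩ := mem_Kl.1 hz
  refine g6 p ?_ p2 ?_ ((p4.mono (Set.inter_subset_inter_right _ hsub)).trans (Pw.symm k1))
  · simp only [sr, Set.mem_ofPred_eq] at p1 ⊢
    omega
  · simp only [sgn, Bool.false_eq_true, if_false] at p3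
    omega

/-- The third arm is fresh. -/
theorem Xo_of_F3 {ω : Cfg} (h : ω ∈ F3 c b r R) :
    ω ∈ Xo c (Rl c b r R (ray false c b r R) ω) b r R := by
  obtain ⟨y0, y1, g1, g2, g3, g4, g5, g6⟩ := h
  set O := Rl c b r R (ray false c b r R) ω with hO
  have e : glue (↑O) ω (kill c O ω) = ω := by
    funext v
    by_cases hv : v ∈ O
    · rw [glue_mem (Finset.mem_coe.2 hv)]
    · rw [glue_not_mem (fun h => hv (Finset.mem_coe.1 h)), kill_out hv]
  have g5' : Pw (cs c (glue (↑O) ω (kill c O ω)) ∩ TA.dq b r R) y0 y1 := by rw [e]; exact g5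
  obtain ⟨-, k2⟩ := fresh_path (fun p hp => hp.2.2.2) g1 g3 g5'
  refine ⟨y0, y1, g2, g3, g4, k2.mono ?_, g6⟩
  rintro v ⟨hv1, hv2⟩
  have hv1' : kill c O ω v = c := hv1
  by_cases hvO : v ∈ O
  · rw [kill_in hvO] at hv1'
    cases c <;> simp at hv1'
  · rw [kill_out hvO] at hv1'
    exact ⟨hv1', hv2, fun h' => hvO (Finset.mem_coe.1 h')⟩

theorem three_leQ (hQ : 1 ≤ Q) (hr : 1 ≤ r) (hD : dF b r R ⊆ D) (hη : Good η) :
    Pr Q D η ({ω | Y1 c b r R ω} ∩ F3 c b r R) ≤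
      pX Q c b r R * Pr Q D η {ω | Y1 c b r R ω} := by
  have hQ0 : 0 < Q := by linarith
  set O : Cfg → Finset (ℤ × ℤ) := fun ω => Rl c b r R (ray false c b r R) ω with hO
  have hst : StopSet O := stop_Rl
  have hG : Past O ({ω | Y1 c b r R ω}.indicator (1 : Cfg → ℝ)) := by
    intro ω ω' h
    have h3 : Y1 c b r R ω' = Y1 c b r R ω := past_Y1 c b r R ω ω' h
    have h4 : ω' ∈ {ω | Y1 c b r R ω} ↔ ω ∈ {ω | Y1 c b r R ω} := by
      show Y1 c b r R ω' ↔ Y1 c b r R ω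
      rw [h3]
    by_cases h5 : ω ∈ {ω | Y1 c b r R ω}
    · rw [Set.indicator_of_mem h5, Set.indicator_of_mem (h4.2 h5)]
      rfl
    · rw [Set.indicator_of_notMem h5, Set.indicator_of_notMem fun h6 => h5 (h4.1 h6)]
  have h1 : Pr Q D η ({ω | Y1 c b r R ω} ∩ F3 c b r R) ≤
      Ex Q D η (fun ω => {ω | Y1 c b r R ω}.indicator 1 ω * (Xo c (O ω) b r R).indicator 1 ω) := by
    refine Ex_mono hQ0 fun S _ => ?_
    rw [ind_inter]
    refine mul_le_mul_of_nonneg_left ?_ (ind_nonneg _ _)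
    exact ind_imp2 fun h => Xo_of_F3 h
  refine h1.trans ?_
  rw [stop_markov hQ0 hη hst hG (fun ω => (Rl_sub ω).trans hD)]
  unfold Pr
  rw [← Ex_mul_left]
  refine Ex_mono hQ0 fun S _ => ?_
  rw [mul_comm (pX Q c b r R)]
  refine mul_le_mul_of_nonneg_left ?_ (ind_nonneg _ _)
  set ω := cf D η S with hω
  have hg : Good ω := f_good.1 D η S hη
  have h2 : Ex Q (D \ O ω) ω (fun ω' => (Xo c (O ω') b r R).indicator 1 ω') =
      Ex Q (D \ O ω) ω ((Xo c (O ω) b r R).indicator 1) := by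
    refine Ex_congr fun T _ => ?_
    have h5 : O (cf (D \ O ω) ω T) = O ω := hst ω _ fun i hi => by
      rw [cf_out fun h => (Finset.mem_sdiff.1 h).2 hi]
    rw [h5]
  rw [h2, f_markov Q (dF b r R \ O ω) (D \ O ω) ω _ hQ0
    (Finset.sdiff_subset_sdiff hD le_rfl) hg,
    ← Ex_const (Q := Q) (D := D \ O ω) (η := ω) hQ0 (pX Q c b r R)]
  refine Ex_mono hQ0 fun T _ => ?_
  exact fresh_le hQ hr (f_good.1 (D \ O ω) ω T hg) (skin_Rl (fun p hp => hp.2.2.2) subset_rfl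
    fun v hv => by rw [cf_out fun h => (Finset.mem_sdiff.1 h).2 hv])

/-! ### The half annulus and its scales -/

theorem scale (hM : 1 ≤ M) (hr : 1 ≤ r) (hR : 4 * M ^ 4 * r ≤ R) :
    Sc M r (M * (M * r)) (R / (M * M)) R ∧ M * (M * r) + 1 < R / (M * M) ∧
      ((M * (M * r) : ℤ) : ℝ) / ((R / (M * M) : ℤ) : ℝ) ≤ 2 * M ^ 4 * ((r : ℝ) / R) := by
  have hMM : 1 ≤ M * M := by nlinarith
  have h1 : M * (M * r) = M * M * r := by ring
  have hMr : 1 ≤ M * M * r := by nlinarith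
  have h2 : 4 * (M * M * r) ≤ R / (M * M) := by
    rw [Int.le_ediv_iff_mul_le (by omega)]
    have e : 4 * (M * M * r) * (M * M) = 4 * M ^ 4 * r := by ring
    rw [e]
    exact hR
  have h3 : M * M * (R / (M * M)) ≤ R := Int.mul_ediv_self_le (by omega)
  have h4 : R < (R / (M * M) + 1) * (M * M) := Int.lt_ediv_add_one_mul_self R (by omega)
  rw [h1]
  refine ⟨⟨hr, le_of_eq h1, by omega, by rw [← mul_assoc]; exact h3⟩, by omega, ?_⟩
  set R1 := R / (M * M) with hR1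
  have h5 : R ≤ 2 * R1 * (M * M) := by
    refine h4.le.trans ?_
    exact mul_le_mul_of_nonneg_right (by omega) (by omega)
  have h6 : (R : ℝ) ≤ 2 * R1 * (M * M) := by exact_mod_cast h5
  have hR1p : (0 : ℝ) < R1 := by exact_mod_cast (by omega : 0 < R1)
  have hRp : (0 : ℝ) < R := by
    have : 0 < R := by
      have : R1 ≤ R := Int.ediv_le_self _ (by
        have : 0 < 4 * M ^ 4 * r := by positivity
        omega)
      omega
    exact_mod_cast this
  rw [← mul_div_assoc, div_le_div_iff₀ hR1p hRp]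
  push_cast
  have hr0 : (0 : ℝ) ≤ r := by exact_mod_cast (by omega : 0 ≤ r)
  have hM0 : (0 : ℝ) ≤ M := by exact_mod_cast (by omega : 0 ≤ M)
  calc (M : ℝ) * M * r * R ≤ M * M * r * (2 * R1 * (M * M)) :=
        mul_le_mul_of_nonneg_left h6 (by positivity)
    _ = 2 * M ^ 4 * r * R1 := by ring

theorem two_core (hQ : 1 ≤ Q) (hM : Rat4 Q M) (hS : SRSW Q) : ∃ C : ℝ, 0 < C ∧
    ∀ (e : Bool) (D : Finset (ℤ × ℤ)) (η : Cfg) (b : ℤ × ℤ) (r R : ℤ), Good η →
      FlatA e D η b r R → 1 ≤ r → r ≤ R →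
      Pr Q D η {ω | TwoS b r R ω} ≤ C * ((r : ℝ) / R) := by
  have hQ0 : 0 < Q := by linarith
  obtain ⟨C, hC, hY⟩ := Y1_leQ hQ hM hS
  have hM1 := hM.1
  have hM1' : (1 : ℝ) ≤ M := by exact_mod_cast hM1
  refine ⟨max (4 * M ^ 4) (2 * (C * (2 * M ^ 4))), by positivity,
    fun e D η b r R hη hfl hr hrR => ?_⟩
  have hr' : (1 : ℝ) ≤ r := by exact_mod_cast hr
  have hR' : (r : ℝ) ≤ R := by exact_mod_cast hrR
  have hRp : (0 : ℝ) < R := by linarith
  by_cases hbig : R < 4 * M ^ 4 * r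
  · have h1 : (R : ℝ) < 4 * M ^ 4 * r := by exact_mod_cast hbig
    calc Pr Q D η {ω | TwoS b r R ω} ≤ 1 := Pr_le_one hQ0 _
      _ ≤ 4 * M ^ 4 * ((r : ℝ) / R) := by
        rw [← mul_div_assoc, le_div_iff₀ hRp]
        linarith
      _ ≤ _ := mul_le_mul_of_nonneg_right (le_max_left _ _) (by positivity)
  · push Not at hbig
    obtain ⟨hs, h1, h2⟩ := scale hM1 hr hbig
    obtain ⟨a1, a2, a3, a4, a5⟩ := hs.le hM1
    set r1 := M * (M * r) with hr1
    set R1 := R / (M * M) with hR1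
    have h3 : Pr Q D η {ω | TwoS b r R ω} ≤
        Pr Q D η {ω | Y1 true b r1 R1 ω} + Pr Q D η {ω | Y1 false b r1 R1 ω} := by
      unfold Pr
      rw [← Ex_add]
      refine Ex_mono hQ0 fun S _ => ?_
      by_cases h4 : cf D η S ∈ {ω | TwoS b r R ω}
      · rw [Set.indicator_of_mem h4]
        obtain ⟨k1, k2⟩ := hx_of_twoS hrR h4
        rcases two_sub a3 h1 (HX_restrict (by omega) (by omega) (by omega) k1)
          (HX_restrict (by omega) (by omega) (by omega) k2) with h | h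
        · rw [Set.indicator_of_mem (show cf D η S ∈ {ω | Y1 true b r1 R1 ω} from h)]
          have := ind_nonneg {ω | Y1 false b r1 R1 ω} (cf D η S)
          simp only [Pi.one_apply]
          linarith
        · rw [Set.indicator_of_mem (show cf D η S ∈ {ω | Y1 false b r1 R1 ω} from h)]
          have := ind_nonneg {ω | Y1 true b r1 R1 ω} (cf D η S)
          simp only [Pi.one_apply]
          linarith
      · rw [Set.indicator_of_notMem h4]
        exact add_nonneg (ind_nonneg _ _) (ind_nonneg _ _)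
    have h4 : ∀ c, Pr Q D η {ω | Y1 c b r1 R1 ω} ≤ C * (2 * M ^ 4 * ((r : ℝ) / R)) := fun c =>
      (hY e c D η b r r1 R1 R hs hη hfl.fls).trans (mul_le_mul_of_nonneg_left h2 hC.le)
    calc Pr Q D η {ω | TwoS b r R ω} ≤ _ := h3
      _ ≤ C * (2 * M ^ 4 * ((r : ℝ) / R)) + C * (2 * M ^ 4 * ((r : ℝ) / R)) :=
        add_le_add (h4 true) (h4 false)
      _ = 2 * (C * (2 * M ^ 4)) * ((r : ℝ) / R) := by ring
      _ ≤ _ := mul_le_mul_of_nonneg_right (le_max_right _ _) (by positivity)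

theorem thr_core (hQ : 1 ≤ Q) (hM : Rat4 Q M) (hS : SRSW Q) : ∃ C α : ℝ, 0 < C ∧ 0 < α ∧
    ∀ (e : Bool) (D : Finset (ℤ × ℤ)) (η : Cfg) (b : ℤ × ℤ) (r R : ℤ), Good η →
      FlatA e D η b r R → 1 ≤ r → r ≤ R →
      Pr Q D η {ω | ThrS b r R ω} ≤ C * ((r : ℝ) / R) ^ (1 + α) := by
  have hQ0 : 0 < Q := by linarith
  obtain ⟨C, hC, hY⟩ := Y1_leQ hQ hM hS
  obtain ⟨α, C1, hα, hC1, hX⟩ := pX_dec hQ hS
  have hM1 := hM.1
  have hM1' : (1 : ℝ) ≤ M := by exact_mod_cast hM1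
  refine ⟨max ((4 * M ^ 4) ^ (1 + α)) (2 * (C1 * C * (2 * M ^ 4) ^ (1 + α))), α, by positivity, hα,
    fun e D η b r R hη hfl hr hrR => ?_⟩
  have hr' : (1 : ℝ) ≤ r := by exact_mod_cast hr
  have hR' : (r : ℝ) ≤ R := by exact_mod_cast hrR
  have hRp : (0 : ℝ) < R := by linarith
  have hq : 0 < (r : ℝ) / R := by positivity
  by_cases hbig : R < 4 * M ^ 4 * r
  · have h1 : (R : ℝ) < 4 * M ^ 4 * r := by exact_mod_cast hbig
    have h4 : 1 ≤ 4 * (M : ℝ) ^ 4 * ((r : ℝ) / R) := by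
      rw [← mul_div_assoc, le_div_iff₀ hRp]
      linarith
    calc Pr Q D η {ω | ThrS b r R ω} ≤ 1 := Pr_le_one hQ0 _
      _ ≤ (4 * M ^ 4 * ((r : ℝ) / R)) ^ (1 + α) := Real.one_le_rpow h4 (by linarith)
      _ = (4 * M ^ 4) ^ (1 + α) * ((r : ℝ) / R) ^ (1 + α) := Real.mul_rpow (by positivity) hq.le
      _ ≤ _ := mul_le_mul_of_nonneg_right (le_max_left _ _) (by positivity)
  · push Not at hbig
    obtain ⟨hs, h1, h2⟩ := scale hM1 hr hbig
    obtain ⟨a1, a2, a3, a4, a5⟩ := hs.le hM1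
    set r1 := M * (M * r) with hr1
    set R1 := R / (M * M) with hR1
    have hr1p : (0 : ℝ) < r1 := by exact_mod_cast (by omega : 0 < r1)
    have hR1p : (0 : ℝ) < R1 := by exact_mod_cast (by omega : 0 < R1)
    have h3 : Pr Q D η {ω | ThrS b r R ω} ≤
        Pr Q D η ({ω | Y1 true b r1 R1 ω} ∩ F3 true b r1 R1) +
          Pr Q D η ({ω | Y1 false b r1 R1 ω} ∩ F3 false b r1 R1) := by
      unfold Pr
      rw [← Ex_add]
      refine Ex_mono hQ0 fun S _ => ?_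
      by_cases h4 : cf D η S ∈ {ω | ThrS b r R ω}
      · rw [Set.indicator_of_mem h4]
        have ht : TwoS b r R (cf D η S) := by
          obtain ⟨e, -, -, he, -⟩ := h4
          exact ⟨e, he⟩
        have h5 : ∀ c, cf D η S ∈ F3 c b r1 R1 := fun c =>
          F3_restrict hr (by omega) (by omega) (by omega) h4
        obtain ⟨k1, k2⟩ := hx_of_twoS hrR ht
        rcases two_sub a3 h1 (HX_restrict (by omega) (by omega) (by omega) k1)
          (HX_restrict (by omega) (by omega) (by omega) k2) with h | h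
        · rw [Set.indicator_of_mem (show cf D η S ∈ {ω | Y1 true b r1 R1 ω} ∩ F3 true b r1 R1
            from ⟨h, h5 true⟩)]
          have := ind_nonneg ({ω | Y1 false b r1 R1 ω} ∩ F3 false b r1 R1) (cf D η S)
          simp only [Pi.one_apply]
          linarith
        · rw [Set.indicator_of_mem (show cf D η S ∈ {ω | Y1 false b r1 R1 ω} ∩ F3 false b r1 R1
            from ⟨h, h5 false⟩)]
          have := ind_nonneg ({ω | Y1 true b r1 R1 ω} ∩ F3 true b r1 R1) (cf D η S)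
          simp only [Pi.one_apply]
          linarith
      · rw [Set.indicator_of_notMem h4]
        exact add_nonneg (ind_nonneg _ _) (ind_nonneg _ _)
    have hdd : dF b r1 R1 ⊆ D := (dF_mono (by omega) (by omega)).trans hfl.fls.dF
    have hT : ∀ c, Pr Q D η ({ω | Y1 c b r1 R1 ω} ∩ F3 c b r1 R1) ≤
        C1 * C * (2 * M ^ 4) ^ (1 + α) * ((r : ℝ) / R) ^ (1 + α) := by
      intro c
      calc Pr Q D η ({ω | Y1 c b r1 R1 ω} ∩ F3 c b r1 R1)
          ≤ pX Q c b r1 R1 * Pr Q D η {ω | Y1 c b r1 R1 ω} := three_leQ hQ a3 hdd hη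
        _ ≤ (C1 * ((r1 : ℝ) / R1) ^ α) * (C * ((r1 : ℝ) / R1)) :=
            mul_le_mul (hX c b r1 R1 a3 hs.h2) (hY e c D η b r r1 R1 R hs hη hfl.fls)
              (Pr_nonneg hQ0 _) (by positivity)
        _ = C1 * C * ((r1 : ℝ) / R1) ^ (1 + α) := by
            rw [Real.rpow_add (by positivity), Real.rpow_one]
            ring
        _ ≤ C1 * C * (2 * M ^ 4 * ((r : ℝ) / R)) ^ (1 + α) := by
            refine mul_le_mul_of_nonneg_left ?_ (by positivity)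
            exact Real.rpow_le_rpow (by positivity) h2 (by linarith)
        _ = _ := by
            rw [Real.mul_rpow (by positivity) hq.le]
            ring
    calc Pr Q D η {ω | ThrS b r R ω} ≤ _ := h3
      _ ≤ _ := add_le_add (hT true) (hT false)
      _ = 2 * (C1 * C * (2 * M ^ 4) ^ (1 + α)) * ((r : ℝ) / R) ^ (1 + α) := by ring
      _ ≤ _ := mul_le_mul_of_nonneg_right (le_max_right _ _) (by positivity)

/-! ### The factor `G` -/

theorem hA_sub (hfl : FlatA e D η b r R) : hA b r R ⊆ D := by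
  intro v hv
  obtain ⟨h1, h2, h3⟩ := mem_hA.1 hv
  exact (hfl v h2 h3).1.2 h1

theorem flat_hA (hfl : FlatA e D η b r R) (S : Finset (ℤ × ℤ)) :
    FlatA e (hA b r R) (cf D η S) b r R := by
  intro v h1 h2
  refine ⟨⟨fun h => (mem_hA.1 h).1, fun h => mem_hA.2 ⟨h, h1, h2⟩⟩, fun h3 => ?_⟩
  have h4 : v ∉ D := fun h => by
    have := (hfl v h1 h2).1.1 h
    omega
  rw [cf_out h4]
  exact (hfl v h1 h2).2 h3

/-- From the half annulus to the domain. -/
theorem lift_G (hQ : 0 < Q) (hη : Good η) (hfl : FlatA e D η b r R) (hG0 : ∀ ω, 0 ≤ G ω)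
    (hG : Ind (hA b r R) G) {E : Set Cfg} {p : ℝ}
    (h : ∀ ω, Good ω → FlatA e (hA b r R) ω b r R → Pr Q (hA b r R) ω E ≤ p) :
    Ex Q D η (fun ω => G ω * E.indicator 1 ω) ≤ p * Ex Q D η G := by
  rw [markov f_markov hQ (A := hA b r R) (hA_sub hfl) hη hG, ← Ex_mul_left]
  refine Ex_mono hQ fun S _ => ?_
  rw [mul_comm p]
  exact mul_le_mul_of_nonneg_left (h _ (f_good.1 D η S hη) (flat_hA hfl S)) (hG0 _)

/-- **(I-2), general `q`.** -/
theorem i2q (hQ : 1 ≤ Q) (hR : RSW Q) (hS : SRSW Q) : I2Q Q := by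
  obtain ⟨α, C0, hα, hC0, h1, h2⟩ := arm_fk hQ hR
  obtain ⟨L, hL⟩ := H519.exists_rat hQ hα h1 h2
  obtain ⟨C, hC, h⟩ := two_core hQ (rat4_of hQ hL) hS
  refine ⟨C, hC, fun e D η b r R G hη hfl hr hrR hG0 hG => ?_⟩
  exact lift_G (by linarith) hη hfl hG0 hG fun ω hω hfl' => h e _ ω b r R hω hfl' hr hrR

/-- **(I-3), general `q`.** -/
theorem i3q (hQ : 1 ≤ Q) (hR : RSW Q) (hS : SRSW Q) : I3Q Q := by
  obtain ⟨α0, C0, hα0, hC0, h1, h2⟩ := arm_fk hQ hR
  obtain ⟨L, hL⟩ := H519.exists_rat hQ hα0 h1 h2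
  obtain ⟨C, α, hC, hα, h⟩ := thr_core hQ (rat4_of hQ hL) hS
  refine ⟨C, α, hC, hα, fun e D η b r R G hη hfl hr hrR hG0 hG => ?_⟩
  exact lift_G (by linarith) hη hfl hG0 hG fun ω hω hfl' => h e _ ω b r R hω hfl' hr hrR

end Vale.Agent.P167.H192.Q
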