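import Vale.Agent.P167.H192.Q.ArcQ

/-!
# P167, general `q`, block Q-NSYM: `ARCO`, `ARCD`, filled arcs at the states `TC`
-/

namespace Vale.Agent.P167.H192.ArcQ

open Finset Vale.Agent.P167 Vale.Agent.P167.FK Vale.Agent.P167.FKA Vale.Agent.P167.H192.TA
  Vale.Agent.P167.H192.Q Vale.Agent.P167.H192.ArcP
open Vale.Agent.P167.H318 (St Pt0 PO HB Lo TB)
open Vale.Agent.P167.H704.Q (fil CU)
open Vale.Agent.P167.H318.UQ (OArc DArc AG ARCO ARCD An)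

variable {Q : ℝ} {e : Bool} {b r R : ℤ} {S : St} {u : ℤ × ℤ → ℤ} {ζ : Cfg}

theorem ag1 (H : AG S b r R) : AG1 S b r R := AG1.of H H.cl

theorem arco (hQ : 1 ≤ Q) (hS : SRSW Q) : ARCO Q := by
  obtain ⟨Λ0, c, hΛ, hc, h⟩ := arco1 hQ hS
  exact ⟨Λ0, fun Λ hΛ' => ⟨c, hc, fun S b r ζ hr H hg hz =>
    (h S b r (Λ * r) ζ hr (by nlinarith) (ag1 H) hg hz).1⟩⟩

theorem arcd (hQ : 1 ≤ Q) (hS : SRSW Q) : ARCD Q := by
  obtain ⟨Λ0, c, hΛ, hc, h⟩ := arco1 hQ hS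
  exact ⟨Λ0, fun Λ hΛ' => ⟨c, hc, fun S b r ζ hr H hg hz =>
    (h S b r (Λ * r) ζ hr (by nlinarith) (ag1 H) hg hz).2⟩⟩

/-- The states `TC`: any half annulus whose hole contains the tip. -/
theorem ag_of_tc {l x ρ : ℤ} (H : H685.Q.TC S l x ρ) (hl : 1 ≤ l) (h1 : |b - x| ≤ r)
    (h2 : 4 * l ≤ r + 1) (h3 : |b - x| + R ≤ ρ) (h4 : 0 ≤ R) : AG S b r R := by
  obtain ⟨k1, k2⟩ := abs_le.1 h1
  obtain ⟨k3, k4⟩ := abs_le.1 (show |b - x| ≤ ρ - R by omega)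
  have htip : hdv S.tip = (x, 4 * l - 1) := by
    rw [H.toTB.tip]
    have h := H.toTB.ev
    show (if Even (x + (4 * l - 1)) then _ else _) = _
    rw [if_pos h]
  refine ⟨H.toTB.toTA.toOk, ⟨H.gq.good, fun v g1 g2 g3 g4 => H.gq.row v (by omega) (by omega) (by omega)
    g4, fun y g1 g2 => H.gq.ne y (by omega) (by omega)⟩, ?_, ?_, ?_, ?_, ?_⟩
  · rintro v ⟨g1, g2, g3, g4⟩
    exact H.flat'.mem v ⟨by omega, by omega, g3, by omega⟩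
  · exact fun y g1 g2 => H.flat'.not y (by omega) (by omega)
  · rintro v ⟨g1, g2, g3, g4⟩
    exact H.po v ⟨by omega, by omega, g3, by omega⟩
  · rw [htip]
    exact ⟨by dsimp only; omega, by dsimp only; omega, by dsimp only; omega, by dsimp only; omega⟩
  · rw [htip]
    intro y g1 g2
    exact H.fresh _ ⟨by dsimp only; omega, by dsimp only; omega, g1, by dsimp only at g2 ⊢; omega⟩

/-- the potential at the states `TC` -/
theorem ptu_of_tc {l x ρ : ℤ} (H : H685.Q.TC S l x ρ) (hu : Pt0 S x (4 * l) u) : PtU S u := by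
  have htip : hdv S.tip = (x, 4 * l - 1) := by
    rw [H.toTB.tip]
    have h := H.toTB.ev
    show (if Even (x + (4 * l - 1)) then _ else _) = _
    rw [if_pos h]
  unfold PtU tx th
  rw [htip]
  simpa using hu

/-- **Filled arcs at the states `TC`**, in any half annulus whose hole contains the tip. -/
theorem farc_tc (hQ : 1 ≤ Q) (hS : SRSW Q) : ∃ (Λ0 : ℤ) (c : ℝ), 4 ≤ Λ0 ∧ 0 < c ∧
    ∀ (e : Bool) (S : St) (l x ρ b r R : ℤ) (u : ℤ × ℤ → ℤ) (ζ : Cfg), 1 ≤ l → H685.Q.TC S l x ρ →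
      |b - x| ≤ r → 4 * l ≤ r + 1 → |b - x| + R ≤ ρ → Λ0 * r ≤ R →
      Pt0 S x (4 * l) u → Good ζ → (∀ v, v ∉ S.F → ζ v = S.z v) →
      c ≤ Pr Q (CU e S (dF ((b, 0) : ℤ × ℤ) (r + 1) R) u) ζ
        {ξ | fil e (dF ((b, 0) : ℤ × ℤ) (r + 1) R) (CU e S (dF ((b, 0) : ℤ × ℤ) (r + 1) R) u) ξ ∈
          ArcE e (b, 0) (r + 1) R} := by
  obtain ⟨Λ0, c, hΛ, hc, h⟩ := farc_ge hQ hS
  refine ⟨Λ0, c, hΛ, hc, fun e S l x ρ b r R u ζ hl H h1 h2 h3 h4 hu hg hz => ?_⟩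
  exact h e S b r R u ζ (by omega) h4 (ag1 (ag_of_tc H hl h1 h2 h3 (by nlinarith))) (ptu_of_tc H hu)
    hg hz

end Vale.Agent.P167.H192.ArcQ
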