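import Vale.Agent.P167.H192.Q.SDefs

/-!
# P167, general `q`: exploration of clusters, comparison in the colour `c`
-/

namespace Vale.Agent.P167.H192.Q

open Finset Relation Vale.Agent.P167 Vale.Agent.P167.FK Vale.Agent.P167.FKA Vale.Agent.P167.H192.TA
  Vale.Agent.P167.H632 Vale.Agent.P167.H558
open Vale.Agent.P145.FB (PStep PConn)
open Vale.Agent.P167.H259 (f_markov f_fkg f_comp f_comp2 Ex_out cf_cf PC_mono)

variable {Q : ℝ} {D A : Finset (ℤ × ℤ)} {η η' : Cfg} {F G : Cfg → ℝ}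

/-! ### The Markov property for stopping sets -/

theorem stop_markov (hQ : 0 < Q) (hη : Good η) {R : Cfg → Finset (ℤ × ℤ)} (hR : StopSet R)
    (hG : Past R G) (hRD : ∀ ω, R ω ⊆ D) :
    Ex Q D η (fun ω => G ω * F ω) = Ex Q D η (fun ω => G ω * Ex Q (D \ R ω) ω F) := by
  classical
  have hsum : ∀ (H : Cfg → ℝ), Ex Q D η (fun ω => G ω * H ω) =
      ∑ K ∈ D.powerset, Ex Q D η (fun ω => (if R ω = K then G ω else 0) * H ω) := by
    intro H
    rw [← Ex_sum]
    refine Ex_congr fun S _ => ?_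
    rw [← Finset.sum_mul]
    congr 1
    rw [Finset.sum_ite_eq, if_pos (Finset.mem_powerset.2 (hRD _))]
  rw [hsum, hsum]
  refine Finset.sum_congr rfl fun K hK => ?_
  have hind : Ind (D \ K) (fun ω => if R ω = K then G ω else 0) := by
    have key : ∀ ω ω' : Cfg, (∀ v, v ∉ D \ K → ω v = ω' v) → R ω = K → R ω' = K ∧ G ω' = G ω := by
      intro ω ω' h hK'
      have h1 : ∀ i ∈ R ω, ω' i = ω i := by
        intro i hi
        rw [hK'] at hi
        exact (h i fun h' => (Finset.mem_sdiff.1 h').2 hi).symm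
      exact ⟨by rw [hR ω ω' h1, hK'], hG ω ω' h1⟩
    intro ω ω' h
    show (if R ω = K then G ω else 0) = if R ω' = K then G ω' else 0
    by_cases h1 : R ω = K
    · obtain ⟨h2, h3⟩ := key ω ω' h h1
      rw [if_pos h1, if_pos h2, h3]
    · have h2 : R ω' ≠ K := fun h2 => h1 (key ω' ω (fun v hv => (h v hv).symm) h2).1
      rw [if_neg h1, if_neg h2]
  rw [markov f_markov hQ (A := D \ K) Finset.sdiff_subset hη hind]
  refine Ex_congr fun S _ => ?_
  by_cases h1 : R (cf D η S) = K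
  · rw [h1]
  · rw [if_neg h1, zero_mul, zero_mul]

/-! ### Comparison in the colour `c` -/

/-- Monotone in the colour `c`. -/
def MonC (c : Bool) (F : Cfg → ℝ) : Prop :=
  ∀ ω ω' : Cfg, (∀ v, ω v = c → ω' v = c) → F ω ≤ F ω'

theorem pw_du {s t : ℤ × ℤ} {ω : Cfg} : Pw (op (du ω)) s t ↔
    Pw (cs false ω) (s.1 - 1, s.2) (t.1 - 1, t.2) := by
  constructor
  · intro h
    induction h with
    | refl => exact ReflTransGen.refl
    | @tail x y _ hxy ih =>
      obtain ⟨h1, h2, h3⟩ := hxy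
      refine ih.tail ⟨by dsimp only; omega, h2, ?_⟩
      have e : min (x.1 - 1) (y.1 - 1) = min x.1 y.1 - 1 := by omega
      dsimp only
      rw [e]
      have h4 : (!(ω (min x.1 y.1 - 1, min x.2 y.2))) = true := h3
      show ω (min x.1 y.1 - 1, min x.2 y.2) = false
      simpa using h4
  · intro h
    have key : ∀ s' t' : ℤ × ℤ, Pw (cs false ω) s' t' →
        Pw (op (du ω)) (s'.1 + 1, s'.2) (t'.1 + 1, t'.2) := by
      intro s' t' h
      induction h with
      | refl => exact ReflTransGen.refl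
      | @tail x y _ hxy ih =>
        obtain ⟨h1, h2, h3⟩ := hxy
        refine ih.tail ⟨by dsimp only; omega, h2, ?_⟩
        have e : min (x.1 + 1) (y.1 + 1) = min x.1 y.1 + 1 := by omega
        dsimp only
        rw [e]
        show (!(ω (min x.1 y.1 + 1 - 1, min x.2 y.2))) = true
        rw [add_sub_cancel_right]
        have h4 : ω (min x.1 y.1, min x.2 y.2) = false := h3
        rw [h4]
        rfl
    have := key _ _ h
    simpa using this

theorem cf_du (A : Finset (ℤ × ℤ)) (η : Cfg) (S' : Finset (ℤ × ℤ)) :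
    cf (A.image sq1) (du η) S' = du (cf A η (A.filter fun v => sq1 v ∉ S')) := by
  funext v
  show cf (A.image sq1) (du η) S' v = !(cf A η _ (v.1 - 1, v.2))
  by_cases h : v ∈ A.image sq1
  · have h1 : (v.1 - 1, v.2) ∈ A := mem_im.1 h
    have e : sq1 (v.1 - 1, v.2) = v := by simp [sq1]
    by_cases h2 : v ∈ S'
    · simp [cf, h, h1, h2, e]
    · simp [cf, h, h1, h2, e]
  · have h1 : (v.1 - 1, v.2) ∉ A := fun h' => h (mem_im.2 h')
    rw [cf_out h, cf_out h1]
    rfl

/-- **Comparison through connections, colour `c`.** -/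
theorem comp2c (hQ : 1 ≤ Q) (c : Bool) (hη : Good η) (hη' : Good η')
    (h : ∀ (S : Finset (ℤ × ℤ)) (a u v : ℤ × ℤ), a ∈ A → Cor a u → Cor a v →
      (u.1 + u.2) % 2 = pr c → (v.1 + v.2) % 2 = pr c → Pw (cs c (cf A η S)) u v →
      Pw (cs c (cf A η' S)) u v) (hF : MonC c F) (hL : Loc A F) :
    Ex Q A η F ≤ Ex Q A η' F := by
  have hQ0 : 0 < Q := by linarith
  cases c
  · rw [ex_du hQ hη F, ex_du hQ hη' F]
    refine f_comp2 Q (A.image sq1) _ _ _ hQ (f_dual.1 _ hη) (f_dual.1 _ hη') ?_ ?_ (loc_du hL)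
    · intro S' _ a' ha' _ hpc
      have h1 : (a'.1 - 1, a'.2) ∈ A := mem_im.1 ha'
      rw [cf_du] at hpc ⊢
      have hca := cor_pa a'
      have hcb := cor_pb a'
      refine pw_du.2 (h _ (a'.1 - 1, a'.2) _ _ h1 ?_ ?_ ?_ ?_ (pw_du.1 hpc))
      · have := hca.1
        unfold Cor at this ⊢
        dsimp only
        omega
      · have := hcb.1
        unfold Cor at this ⊢
        dsimp only
        omega
      · have := hca.2
        rw [Int.even_iff] at this
        simp only [pr, Bool.false_eq_true, if_false]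
        omega
      · have := hcb.2
        rw [Int.even_iff] at this
        simp only [pr, Bool.false_eq_true, if_false]
        omega
    · intro ω ω' hω
      refine hF _ _ fun v hv => ?_
      have h1 : (!(ω (v.1 + 1, v.2))) = false := hv
      show (!(ω' (v.1 + 1, v.2))) = false
      have h2 : ω (v.1 + 1, v.2) = true := by simpa using h1
      rw [hω _ h2]
      rfl
  · refine f_comp2 Q A _ _ _ hQ hη hη' (fun S _ a ha _ hpc => ?_) hF hL
    have hca := cor_pa a
    have hcb := cor_pb a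
    refine h S a _ _ ha hca.1 hcb.1 ?_ ?_ hpc
    · have := hca.2
      rw [Int.even_iff] at this
      exact this
    · have := hcb.2
      rw [Int.even_iff] at this
      exact this

/-! ### Connections outside of the half annulus -/

/-- Sites of the outside of the half annulus. -/
def So (b : ℤ × ℤ) (r R : ℤ) : Set (ℤ × ℤ) :=
  {z | (z.1 ≤ b.1 - R ∨ b.1 + R ≤ z.1 ∨ z.2 ≤ b.2 ∨ b.2 + R ≤ z.2) ∨
    (b.1 - r ≤ z.1 ∧ z.1 ≤ b.1 + r ∧ z.2 ≤ b.2 + r)}

theorem so_of_cor {b : ℤ × ℤ} {r R : ℤ} {v z : ℤ × ℤ} (hv : v ∉ dq b r R) (hz : Cor v z) :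
    z ∈ So b r R := by
  simp only [dq, So, Cor, Set.mem_ofPred_eq] at *
  omega

theorem pw_shift1 {F : Set (ℤ × ℤ)} {s t : ℤ × ℤ}
    (h : Pw {v | (v.1 - 1, v.2) ∈ F} (s.1 + 1, s.2) (t.1 + 1, t.2)) : Pw F s t := by
  have key : ∀ s' t' : ℤ × ℤ, Pw {v | (v.1 - 1, v.2) ∈ F} s' t' →
      Pw F (s'.1 - 1, s'.2) (t'.1 - 1, t'.2) := by
    intro s' t' h
    induction h with
    | refl => exact ReflTransGen.refl
    | @tail x y _ hxy ih =>
      obtain ⟨h1, h2, h3⟩ := hxy
      refine ih.tail ⟨by dsimp only; omega, h2, ?_⟩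
      have e : min (x.1 - 1) (y.1 - 1) = min x.1 y.1 - 1 := by omega
      dsimp only
      rw [e]
      exact h3
  have := key _ _ h
  simpa using this

/-- The outside of the half annulus is connected. -/
theorem conn_out {b : ℤ × ℤ} {r R : ℤ} (hr : 1 ≤ r) {z w : ℤ × ℤ}
    (hzw : (z.1 + z.2) % 2 = (w.1 + w.2) % 2) (hz : z ∈ So b r R) (hw : w ∈ So b r R) :
    Pw (dq b r R)ᶜ z w := by
  -- the rectangle
  have hrect : ∀ z w : ℤ × ℤ, (z.1 + z.2) % 2 = (w.1 + w.2) % 2 →
      (z.1 ≤ b.1 - R ∨ b.1 + R ≤ z.1 ∨ z.2 ≤ b.2 ∨ b.2 + R ≤ z.2) →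
      (w.1 ≤ b.1 - R ∨ b.1 + R ≤ w.1 ∨ w.2 ≤ b.2 ∨ b.2 + R ≤ w.2) → Pw (dq b r R)ᶜ z w := by
    intro z w hzw hz hw
    rcases Int.emod_two_eq (z.1 + z.2) with h | h
    · refine outside_conn (a := b.1 - R) (b := b.1 + R - 1) (c := b.2) (d := b.2 + R - 1) ?_ ?_ ?_
        (by omega) (by omega)
      · intro v hv
        simp only [dq, Set.mem_compl_iff, Set.mem_ofPred_eq]
        omega
      · rw [Int.even_iff]; exact h
      · rw [Int.even_iff]; omega
    · refine pw_shift1 (outside_conn (a := b.1 + 1 - R) (b := b.1 + R) (c := b.2)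
        (d := b.2 + R - 1) ?_ ?_ ?_ (by dsimp only; omega) (by dsimp only; omega))
      · intro v hv
        simp only [dq, Set.mem_compl_iff, Set.mem_ofPred_eq]
        omega
      · rw [Int.even_iff]; dsimp only; omega
      · rw [Int.even_iff]; dsimp only; omega
  -- down to the side
  have hdown : ∀ (n : ℕ) (z : ℤ × ℤ), z ∈ So b r R → z.2 - b.2 ≤ n → ∃ z' : ℤ × ℤ,
      (z.1 + z.2) % 2 = (z'.1 + z'.2) % 2 ∧
      (z'.1 ≤ b.1 - R ∨ b.1 + R ≤ z'.1 ∨ z'.2 ≤ b.2 ∨ b.2 + R ≤ z'.2) ∧ Pw (dq b r R)ᶜ z z' := by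
    intro n
    induction n with
    | zero =>
      intro z hz hn
      exact ⟨z, rfl, by push_cast at hn; omega, ReflTransGen.refl⟩
    | succ n ih =>
      intro z hz hn
      by_cases hz' : z.1 ≤ b.1 - R ∨ b.1 + R ≤ z.1 ∨ z.2 ≤ b.2 ∨ b.2 + R ≤ z.2
      · exact ⟨z, rfl, hz', ReflTransGen.refl⟩
      · have h1 : b.1 - r ≤ z.1 ∧ z.1 ≤ b.1 + r ∧ z.2 ≤ b.2 + r := by
          rcases hz with h | h
          · exact absurd h hz'
          · exact h
        by_cases h2 : z.1 < b.1 + r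
        · obtain ⟨z', g1, g2, g3⟩ := ih (z.1 + 1, z.2 - 1) (Or.inr (by dsimp only; omega))
            (by push_cast at hn ⊢; omega)
          dsimp only at g1
          refine ⟨z', by omega, g2, ReflTransGen.head ?_ g3⟩
          refine ⟨by dsimp only; omega, by dsimp only; omega, ?_⟩
          simp only [dq, Set.mem_compl_iff, Set.mem_ofPred_eq]
          omega
        · obtain ⟨z', g1, g2, g3⟩ := ih (z.1 - 1, z.2 - 1) (Or.inr (by dsimp only; omega))
            (by push_cast at hn ⊢; omega)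
          dsimp only at g1
          refine ⟨z', by omega, g2, ReflTransGen.head ?_ g3⟩
          refine ⟨by dsimp only; omega, by dsimp only; omega, ?_⟩
          simp only [dq, Set.mem_compl_iff, Set.mem_ofPred_eq]
          omega
  obtain ⟨z', a1, a2, a3⟩ := hdown (z.2 - b.2).toNat z hz (by omega)
  obtain ⟨w', b1, b2, b3⟩ := hdown (w.2 - b.2).toNat w hw (by omega)
  exact (a3.trans (hrect z' w' (by omega) a2 b2)).trans (Pw.symm b3)

end Vale.Agent.P167.H192.Q
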