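import Vale.Agent.P167.H192.Q.Exp

/-!
# P167, general `q`: ratio mixing in an annulus at a free (wired) boundary

Nothing is assumed inside of the box `r` and outside of the box `R`.
-/

namespace Vale.Agent.P167.H192.Q

open Finset Relation Vale.Agent.P167.FK Vale.Agent.P167.FKA
open Vale.Agent.P145.FB (PStep PConn)
open Vale.Agent.P167.H259 (f_markov f_fkg f_comp f_comp2 Ex_out cf_cf PC_mono)
open Vale.Agent.P167.H519 (Rat Sx Jn cf_in loc_mono pc_of_cor ind_le_of_imp gen_comp)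
open Vale.Agent.P167.H562.GL (near_of_corx far_of_corx)

variable {Q : ℝ} {x : ℤ × ℤ} {r r1 r2 R2 R1 R : ℤ} {A V V' : Finset (ℤ × ℤ)} {F G : Cfg → ℝ}
  {ξ ξ' : Cfg} {p : ℝ}

/-- The squares of the annulus. -/
noncomputable def An (x : ℤ × ℤ) (r R : ℤ) : Finset (ℤ × ℤ) := Bq x R \ Bq x r

/-- Closed in the annulus outside of `A`. -/
def FrA (x : ℤ × ℤ) (r R : ℤ) (A : Finset (ℤ × ℤ)) (ξ : Cfg) : Prop :=
  ∀ v ∈ An x r R, v ∉ A → ξ v = false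

theorem an_mono (h1 : r ≤ r1) (h2 : R1 ≤ R) : An x r1 R1 ⊆ An x r R := by
  intro v hv
  obtain ⟨h3, h4⟩ := Finset.mem_sdiff.1 hv
  exact Finset.mem_sdiff.2 ⟨H167.Q.bq_mono h2 h3, fun h => h4 (H167.Q.bq_mono h1 h)⟩

theorem FrA.mono (h : FrA x r R A ξ) (h1 : r ≤ r1) (h2 : R1 ≤ R) : FrA x r1 R1 A ξ :=
  fun v hv hvA => h v (an_mono h1 h2 hv) hvA

theorem frA_eta0 : FrA x r R A eta0 := fun _ _ _ => rfl

theorem FrA.cf (h : FrA x r R A ξ) (h1 : r ≤ r1) (h2 : R1 ≤ R) {B : Finset (ℤ × ℤ)}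
    (hB : A ∩ An x r1 R1 ⊆ B) (S : Finset (ℤ × ℤ)) : FrA x r1 R1 B (FK.cf A ξ S) := by
  intro v hv hvB
  have hvA : v ∉ A := fun h' => hvB (hB (Finset.mem_inter.2 ⟨h', hv⟩))
  rw [cf_out hvA]
  exact h v (an_mono h1 h2 hv) hvA

/-- The probability of an arm in an annulus for the worst boundary condition. -/
def ArmLe (Q : ℝ) (x : ℤ × ℤ) (r R : ℤ) (p : ℝ) : Prop :=
  Pr Q (Bq x R \ Bq x r) eta1 {ω | ArmPx x r R ω} ≤ p

theorem ex_arm_ann (hQ : 1 ≤ Q) (hp : ArmLe Q x r R p) (hξ : Good ξ) (hfr : FrA x r R A ξ)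
    (hF0 : ∀ ω, 0 ≤ F ω) (hF : Ind (A ∩ An x r R) F) :
    Ex Q A ξ (fun ω => F ω * {ω | ArmPx x r R ω}.indicator 1 ω) ≤ p * Ex Q A ξ F := by
  have hQ0 : 0 < Q := by linarith
  rw [markov f_markov hQ0 (A := A ∩ An x r R) Finset.inter_subset_left hξ hF, ← Ex_mul_left]
  refine Ex_mono hQ0 fun S _ => ?_
  rw [mul_comm p]
  refine mul_le_mul_of_nonneg_left ?_ (hF0 _)
  refine pr_arm_bdy hQ hp Finset.inter_subset_right (f_good.1 A ξ S hξ) fun v hv hvA => ?_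
  have h1 : v ∉ A := fun h => hvA (Finset.mem_inter.2 ⟨h, hv⟩)
  rw [cf_out h1]
  exact hfr v hv h1

/-- A connection with the outside of `A` gives an arm. -/
theorem arm_of_jn2 (h1 : r ≤ r1) (h2 : R1 ≤ R) (hV : V ⊆ An x r1 R1)
    (hfr : FrA x r R A ξ) {ω : Cfg} (h : Jn (Sx A ξ) V ω) :
    ArmPx x r r1 ω ∨ ArmPx x R1 R ω := by
  obtain ⟨s, ⟨hse, v, hvA, hv, hvs⟩, u, ⟨w, hw, hwu⟩, hsu⟩ := h
  have hvR : v ∉ An x r R := fun h' => by rw [hfr v h' hvA] at hv; simp at hv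
  obtain ⟨hw1, hw2⟩ := Finset.mem_sdiff.1 (hV hw)
  have hue : Even (u.1 + u.2) := by
    have := rtg_parity hsu
    rw [Int.even_iff] at *
    omega
  by_cases hvR' : v ∈ Bq x R
  · have hvr : v ∈ Bq x r := by
      by_contra h'
      exact hvR (Finset.mem_sdiff.2 ⟨hvR', h'⟩)
    left
    rw [armPx_iff h1]
    exact ⟨s, u, hse, near_of_corx hvr hvs, far_of_corx hw2 hwu, hsu⟩
  · right
    rw [armPx_iff h2]
    exact ⟨u, s, hue, near_of_corx hw1 hwu, far_of_corx hvR' hvs, H519.conn_symm hsu⟩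

theorem ex_jn_ann (hQ : 1 ≤ Q) (h1 : r ≤ r1) (h12 : r1 ≤ R1) (h2 : R1 ≤ R)
    (hp1 : ArmLe Q x r r1 p) (hp2 : ArmLe Q x R1 R p) (hξ : Good ξ) (hfr : FrA x r R A ξ)
    (hV : V ⊆ An x r1 R1) (hF0 : ∀ ω, 0 ≤ F ω) (hFV : Loc V F) :
    Ex Q A ξ (fun τ => F τ * {τ | Jn (Sx A ξ) V τ}.indicator 1 τ) ≤ 2 * p * Ex Q A ξ F := by
  have hQ0 : 0 < Q := by linarith
  have k1 := ex_arm_ann (F := F) hQ hp1 hξ (hfr.mono le_rfl (h12.trans h2)) hF0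
    (fun τ τ' h => hFV τ τ' fun v hv => h v fun h' =>
      (Finset.mem_sdiff.1 (hV hv)).2 (Finset.mem_sdiff.1 (Finset.mem_inter.1 h').2).1)
  have k2 := ex_arm_ann (F := F) hQ hp2 hξ (hfr.mono (h1.trans h12) le_rfl) hF0
    (fun τ τ' h => hFV τ τ' fun v hv => h v fun h' =>
      (Finset.mem_sdiff.1 (Finset.mem_inter.1 h').2).2 (Finset.mem_sdiff.1 (hV hv)).1)
  have k3 : Ex Q A ξ (fun τ => F τ * {τ | Jn (Sx A ξ) V τ}.indicator 1 τ) ≤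
      Ex Q A ξ (fun τ => F τ * {τ | ArmPx x r r1 τ}.indicator 1 τ +
        F τ * {τ | ArmPx x R1 R τ}.indicator 1 τ) := by
    refine Ex_mono hQ0 fun S _ => ?_
    rw [← mul_add]
    refine mul_le_mul_of_nonneg_left ?_ (hF0 _)
    by_cases h : cf A ξ S ∈ {τ | Jn (Sx A ξ) V τ}
    · rw [Set.indicator_of_mem h]
      have a1 := ind_nonneg {τ | ArmPx x r r1 τ} (cf A ξ S)
      have a2 := ind_nonneg {τ | ArmPx x R1 R τ} (cf A ξ S)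
      rcases arm_of_jn2 h1 h2 hV hfr h with h' | h'
      · rw [Set.indicator_of_mem (show cf A ξ S ∈ {τ | ArmPx x r r1 τ} from h')]
        simp only [Pi.one_apply]
        linarith
      · rw [Set.indicator_of_mem (show cf A ξ S ∈ {τ | ArmPx x R1 R τ} from h')]
        simp only [Pi.one_apply]
        linarith
    · rw [Set.indicator_of_notMem h]
      exact add_nonneg (ind_nonneg _ _) (ind_nonneg _ _)
  rw [Ex_add] at k3
  linarith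

/-- **Up.** -/
theorem up_ann (hQ : 1 ≤ Q) (h1 : r ≤ r1) (h12 : r1 ≤ R1) (h2 : R1 ≤ R)
    (hp1 : ArmLe Q x r r1 p) (hp2 : ArmLe Q x R1 R p) (hVA : V ⊆ A) (hV : V ⊆ An x r1 R1)
    (hF0 : ∀ ω, 0 ≤ F ω) (hFV : Loc V F) (hξ : Good ξ) (hξ' : Good ξ')
    (hle : ∀ v, v ∉ A → ξ v = true → ξ' v = true) (hfr : FrA x r R A ξ') :
    (1 - 2 * p) * Ex Q A ξ' F ≤ Ex Q A ξ F := by
  have h4 := gen_comp hQ hF0 hFV A.card A ξ ξ' rfl hVA hξ hξ' hle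
  have h5 := ex_jn_ann hQ h1 h12 h2 hp1 hp2 hξ' hfr hV hF0 hFV
  have h6 : Ex Q A ξ' (fun τ => F τ * (1 - {τ | Jn (Sx A ξ') V τ}.indicator 1 τ)) =
      Ex Q A ξ' F - Ex Q A ξ' (fun τ => F τ * {τ | Jn (Sx A ξ') V τ}.indicator 1 τ) := by
    rw [← Ex_sub]
    refine Ex_congr fun S _ => ?_
    ring
  rw [h6] at h4
  linarith

/-- **Down.** -/
theorem dn_ann (hQ : 1 ≤ Q) (h01 : r ≤ r2) (h1 : r2 ≤ r1) (h12 : r1 ≤ R1) (h2 : R1 ≤ R2)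
    (h23 : R2 ≤ R) (hph : 2 * p ≤ 1) (hp1 : ArmLe Q x r2 r1 p) (hp2 : ArmLe Q x R1 R2 p)
    (hp3 : ArmLe Q x r r2 p) (hp4 : ArmLe Q x R2 R p)
    (hVA : V ⊆ A) (hV : V ⊆ An x r1 R1) (hF0 : ∀ ω, 0 ≤ F ω) (hFV : Loc V F) (hξ : Good ξ)
    (hfr : FrA x r R A ξ) : (1 - 2 * p) * (1 - 2 * p) * Ex Q A eta0 F ≤ Ex Q A ξ F := by
  have hQ0 : 0 < Q := by linarith
  have hVV : V ⊆ A ∩ An x r2 R2 := fun v hv =>
    Finset.mem_inter.2 ⟨hVA hv, an_mono h1 h2 (hV hv)⟩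
  have hm0 : 0 ≤ Ex Q A eta0 F := Ex_nonneg hQ0 fun S _ => hF0 _
  have k1 : ∀ B, A ∩ An x r2 R2 ⊆ B → B ⊆ A → (1 - 2 * p) * Ex Q A eta0 F ≤ Ex Q B eta0 F := by
    intro B hB hBA
    rw [f_markov Q B A eta0 F hQ0 hBA f_good.2.1, ← Ex_mul_left,
      ← Ex_const (Q := Q) (D := A) (η := eta0) hQ0 (Ex Q B eta0 F)]
    refine Ex_mono hQ0 fun S _ => ?_
    exact up_ann hQ h1 h12 h2 hp1 hp2 (hVV.trans hB) hV hF0 hFV f_good.2.1
      (f_good.1 A eta0 S f_good.2.1) (fun v _ hv => absurd hv (by simp [eta0]))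
      ((frA_eta0 (r := r) (R := R)).cf h01 h23 hB S)
  have k2 := low_ind hQ hVV hFV (c := (1 - 2 * p) * Ex Q A eta0 F) A.card A ξ rfl
    Finset.inter_subset_left hξ k1
  set c := (1 - 2 * p) * Ex Q A eta0 F with hc
  have hc0 : 0 ≤ c := mul_nonneg (by linarith) hm0
  have k3 : Ex Q A ξ (fun ω => (F ω - c) *
      (1 - {ω | Jn (Sx A ξ) (A ∩ An x r2 R2) ω}.indicator 1 ω)) ≤
      Ex Q A ξ (fun ω => F ω - (c - c * {ω | Jn (Sx A ξ) (A ∩ An x r2 R2) ω}.indicator 1 ω)) := by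
    refine Ex_mono hQ0 fun S _ => ?_
    have k1 := ind_nonneg {ω | Jn (Sx A ξ) (A ∩ An x r2 R2) ω} (cf A ξ S)
    have k2 := hF0 (cf A ξ S)
    nlinarith
  rw [Ex_sub, Ex_sub, Ex_const hQ0, Ex_mul_left c] at k3
  have k4 : Ex Q A ξ ({ω | Jn (Sx A ξ) (A ∩ An x r2 R2) ω}.indicator 1) ≤ 2 * p := by
    have k5 := ex_jn_ann hQ h01 (h1.trans (h12.trans h2)) h23 hp3 hp4 hξ hfr
      (V := A ∩ An x r2 R2) Finset.inter_subset_right (F := fun _ => 1) (fun _ => zero_le_one)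
      fun _ _ _ => rfl
    rw [Ex_const hQ0, mul_one] at k5
    refine le_trans (Ex_mono hQ0 fun S _ => ?_) k5
    show _ ≤ 1 * _
    rw [one_mul]
  have k5 := mul_le_mul_of_nonneg_left k4 hc0
  have e : (1 - 2 * p) * (1 - 2 * p) * Ex Q A eta0 F = c - c * (2 * p) := by rw [hc]; ring
  rw [e]
  linarith

/-! ### Two domains -/

section Main

variable {L : ℤ} {D D' : Finset (ℤ × ℤ)} {η η' : Cfg}

/-- A ratio `M` of the radii for which the arms have probability at most `1 / 4`. -/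
def Rat4 (Q : ℝ) (M : ℤ) : Prop := 1 ≤ M ∧ ∀ (x : ℤ × ℤ) (r R : ℤ), 1 ≤ r → M * r ≤ R →
  ArmLe Q x r R (1 / 4)

theorem rat4_of (hQ : 1 ≤ Q) (hL : Rat Q L) : Rat4 Q (L * L) := by
  have hQ0 : 0 < Q := by linarith
  have hL2 := hL.1
  refine ⟨by nlinarith, fun x r R hr hR => ?_⟩
  have h1 : r ≤ L * r := by nlinarith
  have h2 : L * (L * r) ≤ R := by linarith [mul_assoc L L r]
  have hLr : 1 ≤ L * r := by nlinarith
  unfold ArmLe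
  have h3 : Pr Q (Bq x R \ Bq x r) eta1 {ω | ArmPx x r R ω} ≤
      Ex Q (Bq x R \ Bq x r) eta1 (fun ω => {ω | ArmPx x r (L * r) ω}.indicator 1 ω *
        {ω | ArmPx x (L * r) R ω}.indicator 1 ω) := by
    refine Ex_mono hQ0 fun S _ => ?_
    rw [← ind_inter]
    refine ind_le_of_imp fun h => ⟨?_, ?_⟩
    · exact arm_sub le_rfl h1 (by nlinarith) h
    · exact arm_sub h1 (by nlinarith) le_rfl h
  have hl : Loc (Bq x (L * r)) ({ω | ArmPx x r (L * r) ω}.indicator (1 : Cfg → ℝ)) :=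
    loc_arm x r (L * r)
  have h4 := (hL.2 x (L * r) R (Bq x R \ Bq x r) eta1
    (fun ω => {ω | ArmPx x r (L * r) ω}.indicator 1 ω) hLr h2 f_good.2.2
    (Finset.sdiff_subset_sdiff le_rfl (H167.Q.bq_mono h1)) (fun _ => ind_nonneg _ _)
    (fun ω ω' h => hl ω ω' fun v hv => h v fun h' => (Finset.mem_sdiff.1 h').2 hv)).1
  have h5 := (hL.2 x r (L * r) (Bq x R \ Bq x r) eta1 (fun _ => 1) hr le_rfl f_good.2.2
    (Finset.sdiff_subset_sdiff (H167.Q.bq_mono (by nlinarith)) le_rfl) (fun _ => zero_le_one)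
    (fun _ _ _ => rfl)).1
  simp only [one_mul, Ex_const hQ0, mul_one] at h5
  linarith

/-- Scales. -/
structure Sc (M r r1 R1 R : ℤ) : Prop where
  h0 : 1 ≤ r
  h1 : M * (M * r) ≤ r1
  h2 : r1 ≤ R1
  h3 : M * (M * R1) ≤ R

theorem Sc.le {M : ℤ} (hM : 1 ≤ M) (h : Sc M r r1 R1 R) : r ≤ M * r ∧ M * r ≤ r1 ∧ 1 ≤ r1 ∧
    R1 ≤ M * R1 ∧ M * R1 ≤ R := by
  obtain ⟨h1, h2, h3, h4⟩ := h
  have a1 : r ≤ M * r := by nlinarith
  have a2 : M * r ≤ M * (M * r) := by nlinarith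
  have a3 : 1 ≤ r1 := by omega
  have a4 : R1 ≤ M * R1 := by nlinarith
  have a5 : M * R1 ≤ M * (M * R1) := by nlinarith
  exact ⟨a1, by omega, a3, a4, by omega⟩

theorem ann_le {M : ℤ} (hQ : 1 ≤ Q) (hM : Rat4 Q M) (hs : Sc M r r1 R1 R) (hVA : V ⊆ A)
    (hV : V ⊆ An x r1 R1) (hF0 : ∀ ω, 0 ≤ F ω) (hFV : Loc V F) (hξ : Good ξ)
    (hfr : FrA x r R A ξ) : Ex Q A ξ F ≤ 2 * Ex Q A eta0 F := by
  obtain ⟨a1, a2, a3, a4, a5⟩ := hs.le hM.1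
  have h := up_ann hQ (a1.trans a2) hs.h2 (a4.trans a5) (hM.2 x r r1 hs.h0 a2)
    (hM.2 x R1 R (a3.trans hs.h2) a5) hVA hV hF0 hFV f_good.2.1 hξ
    (fun v _ hv => absurd hv (by simp [eta0])) hfr
  linarith

theorem le_ann {M : ℤ} (hQ : 1 ≤ Q) (hM : Rat4 Q M) (hs : Sc M r r1 R1 R) (hVA : V ⊆ A)
    (hV : V ⊆ An x r1 R1) (hF0 : ∀ ω, 0 ≤ F ω) (hFV : Loc V F) (hξ : Good ξ)
    (hfr : FrA x r R A ξ) : Ex Q A eta0 F ≤ 4 * Ex Q A ξ F := by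
  obtain ⟨a1, a2, a3, a4, a5⟩ := hs.le hM.1
  have hr0 := hs.h0
  have hr1 := hs.h1
  have hrR := hs.h2
  have hR1 := hs.h3
  have h := dn_ann hQ a1 a2 hs.h2 a4 a5 (by norm_num)
    (hM.2 x (M * r) r1 (by omega) hr1) (hM.2 x R1 (M * R1) (by omega) le_rfl)
    (hM.2 x r (M * r) hr0 le_rfl) (hM.2 x (M * R1) R (by omega) hR1) hVA hV hF0 hFV hξ hfr
  linarith

/-- The free measure of the part of the domain in the annulus. -/
theorem dom_ann (hQ : 1 ≤ Q) {M : ℤ} (hM : Rat4 Q M) (hs : Sc M r r1 R1 R) (hVD : V ⊆ D)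
    (hV : V ⊆ An x r1 R1) (hF0 : ∀ ω, 0 ≤ F ω) (hFV : Loc V F) (hη : Good η)
    (hfr : FrA x r R D η) : Ex Q D η F ≤ 2 * Ex Q (D ∩ An x r R) eta0 F ∧
      Ex Q (D ∩ An x r R) eta0 F ≤ 4 * Ex Q D η F := by
  have hQ0 : 0 < Q := by linarith
  obtain ⟨a1, a2, a3, a4, a5⟩ := hs.le hM.1
  have hVA : V ⊆ D ∩ An x r R := fun v hv =>
    Finset.mem_inter.2 ⟨hVD hv, an_mono (a1.trans a2) (a4.trans a5) (hV hv)⟩
  constructor
  · rw [f_markov Q (D ∩ An x r R) D η F hQ0 Finset.inter_subset_left hη,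
      ← Ex_const (Q := Q) (D := D) (η := η) hQ0 (2 * Ex Q (D ∩ An x r R) eta0 F)]
    exact Ex_mono hQ0 fun S _ => ann_le hQ hM hs hVA hV hF0 hFV
      (f_good.1 D η S hη) (hfr.cf le_rfl le_rfl subset_rfl S)
  · rw [f_markov Q (D ∩ An x r R) D η F hQ0 Finset.inter_subset_left hη, ← Ex_mul_left,
      ← Ex_const (Q := Q) (D := D) (η := η) hQ0 (Ex Q (D ∩ An x r R) eta0 F)]
    exact Ex_mono hQ0 fun S _ => le_ann hQ hM hs hVA hV hF0 hFV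
      (f_good.1 D η S hη) (hfr.cf le_rfl le_rfl subset_rfl S)

/-- **Ratio mixing in an annulus at a free boundary.** -/
theorem rat_ann (hQ : 1 ≤ Q) {M : ℤ} (hM : Rat4 Q M) (hs : Sc M r r1 R1 R)
    (hDD : D ∩ An x r R = D' ∩ An x r R) (hVD : V ⊆ D)
    (hV : V ⊆ An x r1 R1) (hF0 : ∀ ω, 0 ≤ F ω) (hFV : Loc V F) (hη : Good η) (hη' : Good η')
    (hfr : FrA x r R D η) (hfr' : FrA x r R D' η') : Ex Q D η F ≤ 8 * Ex Q D' η' F := by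
  obtain ⟨a1, a2, a3, a4, a5⟩ := hs.le hM.1
  have hVD' : V ⊆ D' := fun v hv => by
    have h : v ∈ D ∩ An x r R :=
      Finset.mem_inter.2 ⟨hVD hv, an_mono (a1.trans a2) (a4.trans a5) (hV hv)⟩
    rw [hDD] at h
    exact (Finset.mem_inter.1 h).1
  have h1 := (dom_ann hQ hM hs hVD hV hF0 hFV hη hfr).1
  have h2 := (dom_ann hQ hM hs hVD' hV hF0 hFV hη' hfr').2
  rw [hDD] at h1
  linarith

theorem im_An : (An x r R).image sq1 = An (sq1 x) r R := by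
  unfold An
  rw [Finset.image_sdiff _ _ sq1_inj, im_Bq, im_Bq]

/-- Open in the annulus outside of `A`. -/
def WrA (x : ℤ × ℤ) (r R : ℤ) (A : Finset (ℤ × ℤ)) (ξ : Cfg) : Prop :=
  ∀ v ∈ An x r R, v ∉ A → ξ v = true

theorem WrA.du (h : WrA x r R A ξ) : FrA (sq1 x) r R (A.image sq1) (du ξ) := by
  intro v hv hvA
  rw [← im_An, mem_im] at hv
  rw [mem_im] at hvA
  show (!(ξ (v.1 - 1, v.2))) = false
  rw [h _ hv hvA]
  rfl

/-- **Ratio mixing in an annulus at a wired boundary.** -/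
theorem rat_ann_w (hQ : 1 ≤ Q) {M : ℤ} (hM : Rat4 Q M) (hs : Sc M r r1 R1 R)
    (hDD : D ∩ An x r R = D' ∩ An x r R) (hVD : V ⊆ D)
    (hV : V ⊆ An x r1 R1) (hF0 : ∀ ω, 0 ≤ F ω) (hFV : Loc V F) (hη : Good η) (hη' : Good η')
    (hfr : WrA x r R D η) (hfr' : WrA x r R D' η') : Ex Q D η F ≤ 8 * Ex Q D' η' F := by
  rw [ex_du hQ hη F, ex_du hQ hη' F]
  refine rat_ann hQ hM hs ?_ (Finset.image_subset_image hVD)
    (by rw [← im_An]; exact Finset.image_subset_image hV) (fun _ => hF0 _) (loc_du hFV)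
    (f_dual.1 _ hη) (f_dual.1 _ hη') hfr.du hfr'.du
  rw [← im_An, ← Finset.image_inter _ _ sq1_inj, ← Finset.image_inter _ _ sq1_inj, hDD]

/-- Both kinds of sides. -/
def SdA (e : Bool) (x : ℤ × ℤ) (r R : ℤ) (A : Finset (ℤ × ℤ)) (ξ : Cfg) : Prop :=
  ∀ v ∈ An x r R, v ∉ A → ξ v = e

theorem rat_ann_e (e : Bool) (hQ : 1 ≤ Q) {M : ℤ} (hM : Rat4 Q M) (hs : Sc M r r1 R1 R)
    (hDD : D ∩ An x r R = D' ∩ An x r R) (hVD : V ⊆ D)
    (hV : V ⊆ An x r1 R1) (hF0 : ∀ ω, 0 ≤ F ω) (hFV : Loc V F) (hη : Good η) (hη' : Good η')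
    (hfr : SdA e x r R D η) (hfr' : SdA e x r R D' η') : Ex Q D η F ≤ 8 * Ex Q D' η' F := by
  cases e
  · exact rat_ann hQ hM hs hDD hVD hV hF0 hFV hη hη' hfr hfr'
  · exact rat_ann_w hQ hM hs hDD hVD hV hF0 hFV hη hη' hfr hfr'

end Main

end Vale.Agent.P167.H192.Q
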